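import Claimed.Agent.R282.S34.Lat.SpanZ

/-!
# Row 282, package BP-S34-B, file 5: lattices of bases of roots, exceptional bases, coefficient pattern of exceptional schedules

LEAF L-LAT-5 = this file (~400 lines; paper-free; uses only STATEMENTS of `Lat/Basic`, `Lat/Dual`, `Lat/SpanZ`, and for the last section
`sc_balance_mem_Q`, `sc_runSw_c`, `sc_runSw_frame`, `sc_telescope`, `sc_val_length`-type lemmas of `Sched/Shape`, `sc_wt_dot_root`, `sc_isWtD_act`).

PLAN.
* `lat_cyc_supp_conn`: `vsupp x ⊆ B` (`lat_dual_supp_subset`), nonempty (`lat_dual_ne_zero`), closed (`lat_cyc_closed`); minimality in `SwConn`.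
* `lat_basis_spanZ`: choose dual vectors `X i` (`lat_dual_exists`); `v = relSum c l` (`lat_basis_span`, `lat_span_exists_relSum`), `c_i = X i · v`
  (`lat_dual_relSum`).  DUAL (`lat_dual_abs`): entries `0, ±1`: `c_i ∈ ℤ` (`lat_coeff_bridge`); entries `0, ±1/2`: `vsupp (X i)` is closed (`lat_cyc_closed`),
  `c_i = z + (even)/2` (`lat_coeff_cyc`).  A list of reals all of whose entries are integers is `c'.map cast` (`List.map`, `choose`, or induction).
* `lat_exc_closed`: `B ∩ P`, `B ∩ Pᶜ` are closed subsets of `P`, `Pᶜ`: empty or everything.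
* `lat_exc_join`: `v ∈ Q(D_n)`.  `∑_P v` even: then `∑_{Pᶜ} v` even (`Finset.sum_add_sum_compl`), `lat_exc_spanZ`, `lat_spanZ_mono`.  Odd: apply this to `v - β₀.vec`
  (`∑_P β₀.vec = ±1`: exactly one axis in `P`).
* `lat_exists_cyc`: `e_a = relSum c l`, `c_i = X i · e_a = X i a`.  If all `|X i a| ≠ 1/2` then all `c_i ∈ {0, ±1}`, so `SwSpanZ l e_a`, so `InQD e_a`: `1` even.
* `lat_closed_exists_cyc`: take `a ∈ P`, `i`, `x` from `lat_exists_cyc`; DUAL: all entries `0, ±1/2`.  If `l[i].2.i ∉ P` then `vsupp x ⊆ Pᶜ` (closed): contradiction.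
* `lat_exc_parity`: `m = swCoeffs`, `v = relSum m l ∈ Q(D_n)`.  `pos(T) = c_end + f_end μ = lam - v + reflList roots (w0 μ)`, and with `L = w0 μ`:
  `L - reflList roots L = relSum (L·γ_i) l` (`sc_telescope`) with `L·γ_i ∈ ℤ` (weights pair integrally with roots): in `SwSpanZ l`, even sum on `P`.
  So `IsExc.odd` says `∑_P v` is odd; `∑_univ v` is even.
* coefficients: `m_i = x·v` (`lat_dual_relSum`), `lat_coeff_bridge` / `lat_coeff_cyc` + `lat_cyc_supp_conn` (`l[i].2.i ∈ P` or `∈ Pᶜ`).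
-/

set_option autoImplicit false

namespace Claimed.Agent.R282

variable {n : ℕ} {l l' : List (ℝ × RootD n)} {P : Finset (Fin n)}

/-! ## lattices of bases -/

theorem lat_exists_ne_zero {x : Vec n} (h : x ≠ 0) : ∃ a, x a ≠ 0 := by
  by_contra hcon
  push Not at hcon
  exact h (funext hcon)

/-- the support of the dual vector of a cycle edge is the component of the edge -/
theorem lat_cyc_supp_conn (hs : SwSpan l) {i : ℕ} (hi : i < l.length) {x : Vec n}
    (hx : IsDual l i x) (h2 : ∀ a, x a = 0 ∨ |x a| = 1 / 2) {B : Finset (Fin n)} (hB : SwConn l B)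
    (hiB : l[i].2.i ∈ B) : vsupp x = B := by
  apply hB.2.2 _ (lat_dual_supp_subset hs hi hx hB.2.1 hiB) ?_ (lat_cyc_closed hi hx h2)
  obtain ⟨a, ha⟩ := lat_exists_ne_zero (lat_dual_ne_zero hx hi)
  exact ⟨a, (lat_mem_vsupp x a).2 ha⟩

/-- an integral coefficient list gives an element of the `ℤ`-span -/
theorem lat_spanZ_of_int {c : List ℝ} (hc : c.length = l.length) (h : ∀ a ∈ c, ∃ z : ℤ, a = z) :
    SwSpanZ l (relSum c l) := by
  obtain ⟨c', hc'⟩ := lat_cast_exists c h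
  refine ⟨c', ?_, by rw [hc']⟩
  rw [← lat_cast_length, hc', hc]

/-- the lattice of a basis of roots: integral vectors with even sums over all closed sets -/
theorem lat_basis_spanZ (h : SwBasis l) {v : Vec n} (hv : IsIntV v)
    (he : ∀ B, SwClosed l B → ∃ z : ℤ, ∑ a ∈ B, v a = 2 * z) : SwSpanZ l v := by
  have hs := lat_basis_span h
  obtain ⟨c, hc, hr⟩ := lat_span_exists_relSum hs v
  rw [← hr]
  apply lat_spanZ_of_int hc
  intro a ha
  obtain ⟨k, hk, rfl⟩ := List.getElem_of_mem ha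
  have hk' : k < l.length := hc ▸ hk
  obtain ⟨x, hx⟩ := lat_dual_exists h.1 hk'
  have h1 := lat_dual_relSum hx hk' c
  rw [List.getD_eq_getElem _ _ hk, hr] at h1
  rw [← h1]
  rcases lat_dual_abs hs hk' hx with h2 | h2
  · exact lat_coeff_bridge h2 hv
  · obtain ⟨z, hz⟩ := lat_coeff_cyc h2 hv
    obtain ⟨z', hz'⟩ := he _ (lat_cyc_closed hk' hx h2)
    exact ⟨z + z', by rw [hz, hz']; push_cast; ring⟩

theorem lat_closed_inter {B C : Finset (Fin n)} (hB : SwClosed l B) (hC : SwClosed l C) :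
    SwClosed l (B ∩ C) := by
  intro p hp
  rw [Finset.mem_inter, Finset.mem_inter, hB p hp, hC p hp]

theorem lat_closed_compl {B : Finset (Fin n)} (hB : SwClosed l B) : SwClosed l Bᶜ := by
  intro p hp
  rw [Finset.mem_compl, Finset.mem_compl, hB p hp]

theorem lat_conn_inter {B C : Finset (Fin n)} (hC : SwConn l C) (hB : SwClosed l B) :
    B ∩ C = ∅ ∨ B ∩ C = C := by
  by_cases hne : (B ∩ C).Nonempty
  · right
    exact hC.2.2 _ Finset.inter_subset_right hne (lat_closed_inter hB hC.2.1)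
  · left
    exact Finset.not_nonempty_iff_eq_empty.1 hne

theorem lat_exc_closed (hP : SwConn l P) (hQ : SwConn l Pᶜ) {B : Finset (Fin n)}
    (hB : SwClosed l B) : B = ∅ ∨ B = P ∨ B = Pᶜ ∨ B = Finset.univ := by
  have hu : B = (B ∩ P) ∪ (B ∩ Pᶜ) := by
    rw [← Finset.inter_union_distrib_left, Finset.union_compl, Finset.inter_univ]
  rcases lat_conn_inter hP hB with h1 | h1 <;> rcases lat_conn_inter hQ hB with h2 | h2 <;>
    rw [h1, h2] at hu
  · left; simpa using hu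
  · right; right; left; simpa using hu
  · right; left; simpa using hu
  · right; right; right; simpa using hu

/-- the lattice of an exceptional basis -/
theorem lat_exc_spanZ (h : SwBasis l) (hP : SwConn l P) (hQ : SwConn l Pᶜ) {v : Vec n}
    (hv : IsIntV v) (hvP : ∃ z : ℤ, ∑ a ∈ P, v a = 2 * z) (hvQ : ∃ z : ℤ, ∑ a ∈ Pᶜ, v a = 2 * z) :
    SwSpanZ l v := by
  apply lat_basis_spanZ h hv
  intro B hB
  rcases lat_exc_closed hP hQ hB with rfl | rfl | rfl | rfl
  · exact ⟨0, by simp⟩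
  · exact hvP
  · exact hvQ
  · obtain ⟨z1, h1⟩ := hvP
    obtain ⟨z2, h2⟩ := hvQ
    exact ⟨z1 + z2, by rw [← Finset.sum_add_sum_compl P, h1, h2]; push_cast; ring⟩

/-- TOOL: the roots of an exceptional basis and one root joining `P` and `Pᶜ` generate `Q(D_n)` -/
theorem lat_exc_join (h : SwBasis l) (hP : SwConn l P) (hQ : SwConn l Pᶜ)
    (hl : ∀ p ∈ l, SwSpanZ l' p.2.vec) {β₀ : RootD n} (hβ : SwSpanZ l' β₀.vec)
    (hj : β₀.i ∈ P ↔ β₀.j ∉ P) : SwGenQ l' := by
  -- vectors of `Q` with even sum over `P`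
  have key : ∀ v : Vec n, InQD v → (∃ z : ℤ, ∑ a ∈ P, v a = 2 * z) → SwSpanZ l' v := by
    intro v hv hvP
    apply lat_spanZ_mono hl
    apply lat_exc_spanZ h hP hQ hv.1 hvP
    obtain ⟨z1, h1⟩ := hvP
    obtain ⟨z2, h2⟩ := hv.2
    refine ⟨z2 - z1, ?_⟩
    have := Finset.sum_add_sum_compl P v
    push_cast
    linarith
  intro v hv
  obtain ⟨s, hs⟩ := lat_sum_int P v (fun a _ => hv.1 a)
  obtain ⟨k, hk | hk⟩ := Int.even_or_odd' s
  · exact key v hv ⟨k, by rw [hs, hk]; push_cast; ring⟩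
  · have hβQ : InQD β₀.vec := lat_spanZ_inQD hβ
    have h1 : SwSpanZ l' (v - β₀.vec) := by
      apply key
      · refine ⟨fun a => ?_, ?_⟩
        · obtain ⟨z1, e1⟩ := hv.1 a
          obtain ⟨z2, e2⟩ := hβQ.1 a
          exact ⟨z1 - z2, by simp [e1, e2]⟩
        · obtain ⟨z1, e1⟩ := hv.2
          obtain ⟨z2, e2⟩ := hβQ.2
          exact ⟨z1 - z2, by
            simp only [Pi.sub_apply, Finset.sum_sub_distrib, e1, e2]; push_cast; ring⟩
      · simp only [Pi.sub_apply, Finset.sum_sub_distrib, hs, hk, lat_vec_sum]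
        by_cases hi : β₀.i ∈ P
        · rw [if_pos hi, if_neg (hj.1 hi)]
          rcases lat_sgnB_cases β₀.si with e | e <;> rw [e]
          · exact ⟨k, by push_cast; ring⟩
          · exact ⟨k + 1, by push_cast; ring⟩
        · have hj' : β₀.j ∈ P := by
            by_contra hc; exact hi (hj.2 hc)
          rw [if_neg hi, if_pos hj']
          rcases lat_sgnB_cases β₀.sj with e | e <;> rw [e]
          · exact ⟨k, by push_cast; ring⟩
          · exact ⟨k + 1, by push_cast; ring⟩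
    have h2 := lat_spanZ_add h1 hβ
    rw [sub_add_cancel] at h2
    exact h2

theorem lat_exc_join_cons (h : SwBasis l) (hP : SwConn l P) (hQ : SwConn l Pᶜ) (t : ℝ)
    (β₀ : RootD n) (hj : β₀.i ∈ P ↔ β₀.j ∉ P) : SwGenQ ((t, β₀) :: l) :=
  lat_exc_join h hP hQ (fun _ hp => lat_spanZ_root (List.mem_cons_of_mem _ hp))
    (lat_spanZ_root (p := (t, β₀)) List.mem_cons_self) hj

/-- a connected basis generates `Q(D_n)` -/
theorem lat_conn_genQ (h : SwBasis l) (hc : SwConn l Finset.univ) : SwGenQ l := by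
  intro v hv
  apply lat_basis_spanZ h hv.1
  intro B hB
  by_cases hne : B.Nonempty
  · rw [hc.2.2 B (Finset.subset_univ B) hne hB]
    exact hv.2
  · rw [Finset.not_nonempty_iff_eq_empty.1 hne]
    exact ⟨0, by simp⟩

/-! ## cycle edges exist -/

theorem lat_exists_cyc (h : SwBasis l) (a : Fin n) :
    ∃ (i : ℕ) (x : Vec n), i < l.length ∧ IsDual l i x ∧ |x a| = 1 / 2 := by
  by_contra hcon
  push Not at hcon
  have hs := lat_basis_span h
  obtain ⟨c, hc, hr⟩ := lat_span_exists_relSum hs (Pi.single a 1)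
  have hZ : SwSpanZ l (relSum c l) := by
    apply lat_spanZ_of_int hc
    intro b hb
    obtain ⟨k, hk, rfl⟩ := List.getElem_of_mem hb
    have hk' : k < l.length := hc ▸ hk
    obtain ⟨x, hx⟩ := lat_dual_exists h.1 hk'
    have h1 := lat_dual_relSum hx hk' c
    rw [List.getD_eq_getElem _ _ hk, hr] at h1
    have h2 : dot x (Pi.single a 1) = x a := by
      unfold dot
      rw [Finset.sum_eq_single a]
      · simp
      · intro b _ hb; simp [hb]
      · intro h; exact absurd (Finset.mem_univ _) h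
    rw [h2] at h1
    rw [← h1]
    rcases lat_dual_abs hs hk' hx with h3 | h3
    · rcases h3 a with h4 | h4
      · exact ⟨0, by simp [h4]⟩
      · rcases abs_cases (x a) with ⟨h5, _⟩ | ⟨h5, _⟩
        · exact ⟨1, by push_cast; linarith⟩
        · exact ⟨-1, by push_cast; linarith⟩
    · rcases h3 a with h4 | h4
      · exact ⟨0, by simp [h4]⟩
      · exact absurd h4 (hcon k x hk' hx)
  rw [hr] at hZ
  obtain ⟨z, hz⟩ := (lat_spanZ_inQD hZ).2
  rw [Finset.sum_pi_single'] at hz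
  simp only [Finset.mem_univ, if_true] at hz
  have : (1 : ℤ) = 2 * z := by exact_mod_cast hz
  omega

theorem lat_closed_exists_cyc (h : SwBasis l) (hP : SwClosed l P) (hne : P.Nonempty) :
    ∃ (i : ℕ) (hi : i < l.length), IsCyc l i ∧ l[i].2.i ∈ P := by
  obtain ⟨a, ha⟩ := hne
  obtain ⟨i, x, hi, hx, hxa⟩ := lat_exists_cyc h a
  have hs := lat_basis_span h
  have h2 : ∀ b, x b = 0 ∨ |x b| = 1 / 2 := by
    rcases lat_dual_abs hs hi hx with h3 | h3
    · exfalso
      rcases h3 a with h4 | h4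
      · rw [h4] at hxa; norm_num at hxa
      · rw [h4] at hxa; norm_num at hxa
    · exact h3
  refine ⟨i, hi, ⟨x, hx, h2⟩, ?_⟩
  by_contra hc
  have h3 := lat_dual_supp_subset hs hi hx (lat_closed_compl hP) (Finset.mem_compl.2 hc)
  have h4 : a ∈ vsupp x := by
    rw [lat_mem_vsupp]
    intro h0; rw [h0] at hxa; norm_num at hxa
  exact (Finset.mem_compl.1 (h3 h4)) ha

/-! ## the dichotomy of Lemma 3.3 -/

/-- a coefficient vector with right-hand side in `Q(D_n)` is integral or some closed set has odd sum -/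
theorem lat_int_or_odd (h : SwBasis l) (m : List ℝ) (hm : m.length = l.length)
    (hv : IsIntV (relSum m l)) :
    (∀ a ∈ m, ∃ z : ℤ, a = z) ∨
      ∃ B, SwClosed l B ∧ B.Nonempty ∧ ∃ z : ℤ, ∑ a ∈ B, relSum m l a = 2 * z + 1 := by
  by_cases hall : ∀ a ∈ m, ∃ z : ℤ, a = z
  · exact Or.inl hall
  right
  push Not at hall
  obtain ⟨a, ha, hna⟩ := hall
  obtain ⟨k, hk, rfl⟩ := List.getElem_of_mem ha
  have hk' : k < l.length := hm ▸ hk
  have hs := lat_basis_span h
  obtain ⟨x, hx⟩ := lat_dual_exists h.1 hk'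
  have h1 := lat_dual_relSum hx hk' m
  rw [List.getD_eq_getElem _ _ hk] at h1
  rcases lat_dual_abs hs hk' hx with h2 | h2
  · obtain ⟨z, hz⟩ := lat_coeff_bridge h2 hv
    exact absurd (h1.symm.trans hz) (hna z)
  · obtain ⟨z, hz⟩ := lat_coeff_cyc h2 hv
    obtain ⟨s, hs'⟩ := lat_sum_int (vsupp x) (relSum m l) (fun a _ => hv a)
    refine ⟨vsupp x, lat_cyc_closed hk' hx h2, ?_, ?_⟩
    · obtain ⟨a, ha⟩ := lat_exists_ne_zero (lat_dual_ne_zero hx hk')
      exact ⟨a, (lat_mem_vsupp x a).2 ha⟩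
    · obtain ⟨q, hq | hq⟩ := Int.even_or_odd' s
      · exfalso
        apply hna (z + q)
        rw [← h1, hz, hs', hq]; push_cast; ring
      · exact ⟨q, by rw [hs', hq]; push_cast; ring⟩

/-! ## exceptional schedules -/

/-- `lam + w0 μ - y(T) = ∑ m_i β_i + u` with `u` in the `ℤ`-span of the switch roots -/
theorem lat_balance (lam : Vec n) (θ : Shape n) (wm : IsWtD θ.sum) (w0 : WD n)
    (l : List (ℝ × RootD n)) :
    ∃ u : Vec n, SwSpanZ l u ∧ ∀ i, lam i + w0.act θ.sum i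
      - (runSw θ ⟨w0.act, lam⟩ l).pos θ θ.length i
        = relSum (swCoeffs θ ⟨w0.act, lam⟩ l) l i + u i := by
  refine ⟨relSum ((velRoots (l.map Prod.snd)).map (fun γ => dot (w0.act θ.sum) γ.vec)) l, ?_, ?_⟩
  · apply lat_spanZ_of_int
    · rw [List.length_map, sc_velRoots_length, List.length_map]
    · intro a ha
      obtain ⟨γ, _, rfl⟩ := List.mem_map.1 ha
      exact sc_wt_dot_root _ (sc_isWtD_act w0 _ wm) γ
  · intro i
    rw [sc_telescope]
    unfold SwState.pos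
    rw [sc_runSw_c, sc_runSw_frame, sc_val_length]
    simp only [Pi.add_apply, Pi.sub_apply]
    ring

/-- the right-hand side of the endpoint balance has odd sums over `P` and `Pᶜ` -/
theorem lat_exc_parity (lam xi : Vec n) (θ : Shape n) (L : Lbl lam θ xi) (w0 : WD n)
    (hs : IsSchedule lam θ xi w0 l) (hE : IsExc lam θ w0 l P) :
    (∃ z : ℤ, ∑ a ∈ P, relSum (swCoeffs θ ⟨w0.act, lam⟩ l) l a = 2 * z + 1) ∧
      ∃ z : ℤ, ∑ a ∈ Pᶜ, relSum (swCoeffs θ ⟨w0.act, lam⟩ l) l a = 2 * z + 1 := by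
  obtain ⟨u, hu, hb⟩ := lat_balance lam θ L.wm w0 l
  obtain ⟨z, hz⟩ := hE.odd
  obtain ⟨k, hk⟩ := lat_spanZ_even hE.connP.2.1 hu
  obtain ⟨q, hq⟩ := (sc_balance_mem_Q lam xi θ L w0 l hs).2
  rw [Finset.sum_congr rfl (fun i _ => hb i), Finset.sum_add_distrib, hk] at hz
  have h1 : ∑ a ∈ P, relSum (swCoeffs θ ⟨w0.act, lam⟩ l) l a = 2 * ((z - k : ℤ) : ℝ) + 1 := by
    push_cast; linarith
  refine ⟨⟨z - k, h1⟩, ⟨q - (z - k) - 1, ?_⟩⟩
  have h2 := Finset.sum_add_sum_compl P (relSum (swCoeffs θ ⟨w0.act, lam⟩ l) l)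
  rw [hq, h1] at h2
  push_cast at h2 ⊢
  linarith

theorem lat_exc_basis {lam : Vec n} {θ : Shape n} {w0 : WD n} (hE : IsExc lam θ w0 l P) :
    SwBasis l := ⟨hE.indep, hE.len⟩

theorem lat_exc_coeff_bridge (lam xi : Vec n) (θ : Shape n) (L : Lbl lam θ xi) (w0 : WD n)
    (hs : IsSchedule lam θ xi w0 l) (hE : IsExc lam θ w0 l P) {i : ℕ} (hi : i < l.length)
    (hb : IsBridge l i) : ∃ z : ℤ, (swCoeffs θ ⟨w0.act, lam⟩ l).getD i 0 = z := by
  obtain ⟨x, hx, h1⟩ := hb
  rw [← lat_dual_relSum hx hi]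
  exact lat_coeff_bridge h1 (sc_balance_mem_Q lam xi θ L w0 l hs).1

theorem lat_exc_coeff_cyc (lam xi : Vec n) (θ : Shape n) (L : Lbl lam θ xi) (w0 : WD n)
    (hs : IsSchedule lam θ xi w0 l) (hE : IsExc lam θ w0 l P) {i : ℕ} (hi : i < l.length)
    (hc : IsCyc l i) : ∃ z : ℤ, (swCoeffs θ ⟨w0.act, lam⟩ l).getD i 0 = z + 1 / 2 := by
  obtain ⟨x, hx, h2⟩ := hc
  rw [← lat_dual_relSum hx hi]
  obtain ⟨z, hz⟩ := lat_coeff_cyc h2 (sc_balance_mem_Q lam xi θ L w0 l hs).1
  obtain ⟨⟨k1, e1⟩, ⟨k2, e2⟩⟩ := lat_exc_parity lam xi θ L w0 hs hE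
  have hsp := lat_basis_span (lat_exc_basis hE)
  by_cases hiP : l[i].2.i ∈ P
  · rw [lat_cyc_supp_conn hsp hi hx h2 hE.connP hiP, e1] at hz
    exact ⟨z + k1, by rw [hz]; push_cast; ring⟩
  · rw [lat_cyc_supp_conn hsp hi hx h2 hE.connQ (Finset.mem_compl.2 hiP), e2] at hz
    exact ⟨z + k2, by rw [hz]; push_cast; ring⟩

/-- `IsExc` is symmetric in the two components -/
theorem lat_exc_compl (lam xi : Vec n) (θ : Shape n) (L : Lbl lam θ xi) (w0 : WD n)
    (hs : IsSchedule lam θ xi w0 l) (hE : IsExc lam θ w0 l P) : IsExc lam θ w0 l Pᶜ := by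
  refine ⟨hE.len, hE.indep, hE.connQ, by rw [compl_compl]; exact hE.connP, ?_⟩
  obtain ⟨u, hu, hb⟩ := lat_balance lam θ L.wm w0 l
  obtain ⟨k, hk⟩ := lat_spanZ_even hE.connQ.2.1 hu
  obtain ⟨_, ⟨k2, e2⟩⟩ := lat_exc_parity lam xi θ L w0 hs hE
  refine ⟨k2 + k, ?_⟩
  rw [Finset.sum_congr rfl (fun i _ => hb i), Finset.sum_add_distrib, hk, e2]
  push_cast; ring

end Claimed.Agent.R282
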