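import Claimed.Agent.R282.S34.Lat.SpanZ

/-!
# Row 282, package BP-S34-B, file 6: relations among `n + 1` roots of rank `n` (Lemma 3.5)

LEAF L-LAT-6a = section `Real` (~300 lines), LEAF L-LAT-6b = section `Prim` (~350 lines).  Paper-free; uses `Lat/Basic`, `Lat/Dual` (`lat_fam_dual_abs`), `Lat/SpanZ`.

PLAN, section `Real`.  Work with `Φ : (Fin l.length → ℝ) →ₗ Vec n`, `Φ f = ∑ i, f i • (l.get i).2.vec` (`lat_relSum_eq_sum`, `lat_relSum_ofFn`;
a list `d` of length `l.length` is `List.ofFn (fun i => d.getD i 0)`).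
* `lat_rel_line`: `Φ` is onto (`lat_span_exists_relSum`), so `finrank ker Φ = 1` (`LinearMap.finrank_range_add_finrank_ker`), `finrank_eq_one_iff_of_nonzero'`.
* `lat_rel_entry_ne`: if `d_i = 0`, the other entries give a relation of the independent family `l.eraseIdx i`.  Suggested: prove the family form first:
  `LinearIndependent ℝ (fun k : {k : Fin l.length // k.1 ≠ i} => (l.get k).2.vec)` from `SwIndep (l.eraseIdx i)` (reindex by `Fin.succAbove`-like equivalence; `List.getElem_eraseIdx`).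
* `lat_rel_ratio`: `d_i ≠ 0`.  Family `b k = (l.get k).2`, `k : {k // k.1 ≠ i}`: spanning in the sense of `lat_fam_dual_abs` (if `z ⊥ b k` for all `k` then
  `d_i (z·β_i) = - ∑_{k ≠ i} d_k (z·β_k) = 0`, so `z = 0` by `SwSpan l`), `n` vectors: independent (`linearIndependent_of_top_le_span_of_card_eq_finrank`),
  so there is `x` with `x·β_j = 1`, `x·β_k = 0` (`k ≠ i, j`).  `0 = x·relSum d l = d_j + d_i (x·β_i)`.  `|x_a| ∈ {0,κ}`, `κ ∈ {1, 1/2}`:
  `2 x·β_i = 2(± x_p ± x_q) ∈ {0, ±1, ±2, ±4}`.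
PLAN, section `Prim`.
* `lat_primRel_exists`: the vectors `(l.get i).2.vec` have rational (integral) coordinates; `n + 1` vectors of `ℚ^n` are dependent
  (`exists_nontrivial_relation_of_finrank_lt_card` or `Module.finrank`/`LinearIndependent.fintype_card_le_finrank` over `ℚ` with `fun i a => ((β_i)_a : ℚ)`), clear denominators,
  divide by the gcd (`Finset.gcd`, `Finset.extract_gcd`, or strong induction on `∑ |r_i|`).
* `lat_primRel_bound`, `lat_primRel_unit`: take `i` with `|r_i|` minimal among the nonzero entries; by `lat_rel_ratio` `2 r_j = z r_i`, `|z| ∈ {0,1,2,4}`, and `|z| = 1` is excluded by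
  minimality: `r_i ∣ r_j` for all `j`; primitive: `|r_i| = 1`, `|r_j| ≤ 2`.
* `lat_half_int`: `relSum m l = relSum c l` with `c` integral (`SwGenQ`); `m - c = s r` (`lat_rel_of_primRel`); some `|r_i| = 1`, `2 (m_i - c_i) ∈ ℤ`: `2 s ∈ ℤ`.
  `s ∈ ℤ`: `m` integral; `s = k + 1/2`: `m_i + r_i / 2 = c_i + (k + 1) r_i`.
-/

set_option autoImplicit false

namespace Claimed.Agent.R282

variable {n : ℕ} {l : List (ℝ × RootD n)}

section Real

theorem latRel_nil (l : List (ℝ × RootD n)) : relSum [] l = 0 := by simp [relSum]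

theorem latRel_cons (a : ℝ) (c : List ℝ) (p : ℝ × RootD n) (l : List (ℝ × RootD n)) :
    relSum (a :: c) (p :: l) = a • p.2.vec + relSum c l := by simp [relSum]

/-- a list is determined by its length and its entries -/
theorem latRel_ext {α : Type} (z : α) {d d' : List α} (h : d.length = d'.length)
    (he : ∀ i, i < d.length → d.getD i z = d'.getD i z) : d = d' := by
  apply List.ext_getElem h
  intro i h1 h2
  have := he i h1
  rwa [List.getD_eq_getElem _ _ h1, List.getD_eq_getElem _ _ h2] at this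

theorem latRel_getD_map (s : ℝ) (d : List ℝ) (i : ℕ) : (d.map (s * ·)).getD i 0 = s * d.getD i 0 := by
  have := List.getD_map (l := d) (n := i) (d := (0 : ℝ)) (s * ·)
  simpa using this

theorem latRel_getD_cast (r : List ℤ) (i : ℕ) :
    (r.map (fun z : ℤ => (z : ℝ))).getD i 0 = ((r.getD i 0 : ℤ) : ℝ) := by
  have := List.getD_map (l := r) (n := i) (d := (0 : ℤ)) (fun z => (z : ℝ))
  rw [Int.cast_zero] at this
  exact this

theorem latRel_smul (s : ℝ) (c : List ℝ) (l : List (ℝ × RootD n)) :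
    relSum (c.map (s * ·)) l = s • relSum c l := by
  rw [lat_relSum_eq_sum, lat_relSum_eq_sum, Finset.smul_sum]
  refine Finset.sum_congr rfl fun i _ => ?_
  rw [latRel_getD_map, smul_smul]

/-- splitting off one root -/
theorem latRel_erase (d : List ℝ) (l : List (ℝ × RootD n)) (i : ℕ) (hi : i < l.length) :
    relSum d l = relSum (d.eraseIdx i) (l.eraseIdx i) + d.getD i 0 • l[i].2.vec := by
  induction l generalizing d i with
  | nil => simp at hi
  | cons p l ih =>
    cases d with
    | nil => simp [latRel_nil]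
    | cons a d =>
      cases i with
      | zero =>
        simp only [List.eraseIdx_cons_zero, List.getD_cons_zero, List.getElem_cons_zero, latRel_cons]
        abel
      | succ i =>
        have hi' : i < l.length := by simpa using hi
        simp only [List.eraseIdx_cons_succ, List.getD_cons_succ, List.getElem_cons_succ, latRel_cons]
        rw [ih d i hi']
        abel

theorem latRel_zero_of_indep {d : List ℝ} (hI : SwIndep l) (hd : IsRel d l) : ∀ a ∈ d, a = 0 := by
  have h := lat_indep_relSum_inj hI hd.1 (c' := List.replicate l.length 0) (by simp) (by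
    rw [hd.2, lat_relSum_eq_sum]
    symm
    apply Finset.sum_eq_zero
    intro i _
    simp)
  intro a ha
  rw [h] at ha
  exact (List.mem_replicate.1 ha).2

theorem lat_rel_exists (hl : n < l.length) : ∃ d, IsRel d l ∧ ∃ a ∈ d, a ≠ 0 := by
  have hI : ¬ SwIndep l := fun h => absurd (lat_indep_length_le h) (by omega)
  unfold SwIndep at hI
  obtain ⟨g, hg, i, hi⟩ := Fintype.not_linearIndependent_iff.1 hI
  refine ⟨List.ofFn g, ⟨by simp, ?_⟩, g i, ?_, hi⟩
  · rw [lat_relSum_ofFn]
    exact hg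
  · exact (List.mem_ofFn' g (g i)).2 ⟨i, rfl⟩

theorem lat_rel_smul {d : List ℝ} (hd : IsRel d l) (s : ℝ) : IsRel (d.map (s * ·)) l := by
  refine ⟨by rw [List.length_map]; exact hd.1, ?_⟩
  rw [latRel_smul, hd.2, smul_zero]

/-- the relations form a line -/
theorem lat_rel_line (hs : SwSpan l) (hl : l.length = n + 1) {d d' : List ℝ} (hd : IsRel d l)
    (h0 : ∃ a ∈ d, a ≠ 0) (hd' : IsRel d' l) : ∃ s : ℝ, d' = d.map (s * ·) := by
  obtain ⟨Φ, hΦ⟩ : ∃ Φ : (Fin l.length → ℝ) →ₗ[ℝ] Vec n,
      Φ = Fintype.linearCombination ℝ (fun i : Fin l.length => (l.get i).2.vec) := ⟨_, rfl⟩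
  have hrange : LinearMap.range Φ = ⊤ := by
    rw [hΦ, Fintype.range_linearCombination]
    exact lat_top_of_span hs
  have hker : Module.finrank ℝ (LinearMap.ker Φ) = 1 := by
    have := LinearMap.finrank_range_add_finrank_ker Φ
    rw [hrange, finrank_top, Module.finrank_fin_fun, Module.finrank_fin_fun] at this
    omega
  have hmem : ∀ c : List ℝ, IsRel c l → (fun i : Fin l.length => c.getD i 0) ∈ LinearMap.ker Φ := by
    intro c hc
    rw [LinearMap.mem_ker, hΦ, Fintype.linearCombination_apply, ← lat_relSum_eq_sum]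
    exact hc.2
  have hne : (⟨_, hmem d hd⟩ : LinearMap.ker Φ) ≠ 0 := by
    intro h
    obtain ⟨a, ha, ha0⟩ := h0
    obtain ⟨i, hi, rfl⟩ := List.mem_iff_getElem.1 ha
    have h1 := congrFun (congrArg Subtype.val h) ⟨i, hd.1 ▸ hi⟩
    simp only [ZeroMemClass.coe_zero, Pi.zero_apply] at h1
    rw [List.getD_eq_getElem _ _ hi] at h1
    exact ha0 h1
  obtain ⟨s, hs'⟩ := (finrank_eq_one_iff_of_nonzero' _ hne).1 hker ⟨_, hmem d' hd'⟩
  refine ⟨s, latRel_ext 0 (by rw [List.length_map, hd.1, hd'.1]) fun i hi => ?_⟩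
  have h1 := congrFun (congrArg Subtype.val hs') ⟨i, hd'.1 ▸ hi⟩
  simp only [SetLike.val_smul, Pi.smul_apply, smul_eq_mul] at h1
  rw [latRel_getD_map, h1]

/-- the entry of a nonzero relation at `i` is nonzero if the other roots are independent -/
theorem lat_rel_entry_ne {d : List ℝ} (hd : IsRel d l) (h0 : ∃ a ∈ d, a ≠ 0) {i : ℕ}
    (hI : SwIndep (l.eraseIdx i)) : d.getD i 0 ≠ 0 := by
  intro hzero
  obtain ⟨a, ha, ha0⟩ := h0
  by_cases hi : i < l.length
  · have h1 := latRel_erase d l i hi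
    rw [hd.2, hzero, zero_smul, add_zero] at h1
    have hrel : IsRel (d.eraseIdx i) (l.eraseIdx i) :=
      ⟨by rw [List.length_eraseIdx, List.length_eraseIdx, hd.1], h1.symm⟩
    have hz := latRel_zero_of_indep hI hrel
    obtain ⟨k, hk, rfl⟩ := List.mem_iff_getElem.1 ha
    by_cases hki : k = i
    · subst hki
      rw [List.getD_eq_getElem _ _ hk] at hzero
      exact ha0 hzero
    · exact ha0 (hz _ (List.mem_eraseIdx_iff_getElem.2 ⟨k, hk, hki, rfl⟩))
  · rw [List.eraseIdx_of_length_le (not_lt.1 hi)] at hI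
    exact ha0 (latRel_zero_of_indep hI hd a ha)

theorem lat_rel_entry_ne_mid (l₁ l₂ : List (ℝ × RootD n)) (p : ℝ × RootD n) {d : List ℝ}
    (hd : IsRel d (l₁ ++ p :: l₂)) (h0 : ∃ a ∈ d, a ≠ 0) (hI : SwIndep (l₁ ++ l₂)) :
    d.getD l₁.length 0 ≠ 0 := by
  apply lat_rel_entry_ne hd h0
  have e : (l₁ ++ p :: l₂).eraseIdx l₁.length = l₁ ++ l₂ := by
    rw [List.eraseIdx_append_of_length_le (le_refl _)]
    simp
  rw [e]
  exact hI

/-- conversely: deleting a root with nonzero entry leaves a basis -/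
theorem lat_rel_erase_basis (hs : SwSpan l) (hl : l.length = n + 1) {d : List ℝ} (hd : IsRel d l)
    {i : ℕ} (hi : d.getD i 0 ≠ 0) : SwBasis (l.eraseIdx i) := by
  have hi' : i < l.length := by
    by_contra h
    apply hi
    rw [List.getD_eq_default]
    rw [hd.1]
    omega
  apply lat_span_basis
  · intro z hz
    apply hs
    have h1 := latRel_erase d l i hi'
    have h2 : dot z (relSum d l) = 0 := by rw [hd.2, dot_zero_right]
    rw [h1, dot_add_right, dot_smul_right] at h2
    have h3 : dot z (relSum (d.eraseIdx i) (l.eraseIdx i)) = 0 := by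
      rw [lat_dot_relSum]
      apply Finset.sum_eq_zero
      intro k _
      rw [hz _ (List.get_mem _ _), mul_zero]
    rw [h3, zero_add] at h2
    have h4 : dot z l[i].2.vec = 0 := (mul_eq_zero.1 h2).resolve_left hi
    intro p hp
    obtain ⟨k, hk, rfl⟩ := List.mem_iff_getElem.1 hp
    by_cases hki : k = i
    · subst hki
      exact h4
    · exact hz _ (List.mem_eraseIdx_iff_getElem.2 ⟨k, hk, hki, rfl⟩)
  · rw [List.length_eraseIdx, if_pos hi', hl]
    rfl

/-- ratios of the entries of a relation (L3.5) -/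
theorem lat_rel_ratio (hs : SwSpan l) (hl : l.length = n + 1) {d : List ℝ} (hd : IsRel d l)
    (i j : ℕ) (hi : d.getD i 0 ≠ 0) :
    ∃ z : ℤ, 2 * d.getD j 0 = z * d.getD i 0 ∧ (z = 0 ∨ |z| = 1 ∨ |z| = 2 ∨ |z| = 4) := by
  by_cases hji : j = i
  · subst hji
    exact ⟨2, by push_cast; ring, Or.inr (Or.inr (Or.inl rfl))⟩
  by_cases hj : j < l.length
  swap
  · refine ⟨0, ?_, Or.inl rfl⟩
    rw [List.getD_eq_default _ _ (by rw [hd.1]; omega)]
    simp
  have hi' : i < l.length := by
    by_contra h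
    apply hi
    rw [List.getD_eq_default]
    rw [hd.1]
    omega
  have hB := lat_rel_erase_basis hs hl hd hi
  have hlen : (l.eraseIdx i).length = n := hB.2
  obtain ⟨j', hj', hgetd⟩ : ∃ j', j' < (l.eraseIdx i).length ∧ (d.eraseIdx i).getD j' 0 = d.getD j 0 := by
    rcases lt_or_gt_of_ne hji with h | h
    · refine ⟨j, by omega, ?_⟩
      rw [List.getD_eq_getElem?_getD, List.getD_eq_getElem?_getD, List.getElem?_eraseIdx, if_pos h]
    · refine ⟨j - 1, by omega, ?_⟩
      rw [List.getD_eq_getElem?_getD, List.getD_eq_getElem?_getD, List.getElem?_eraseIdx,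
        if_neg (by omega), show j - 1 + 1 = j by omega]
  obtain ⟨x, hx⟩ := lat_dual_exists hB.1 hj'
  obtain ⟨z, hz, hzc⟩ := lat_dual_dot_root (lat_basis_span hB) hj' hx l[i].2
  have h1 := latRel_erase d l i hi'
  have h2 : dot x (relSum d l) = 0 := by rw [hd.2, dot_zero_right]
  rw [h1, dot_add_right, dot_smul_right, lat_dual_relSum hx hj', hgetd] at h2
  refine ⟨-z, ?_, ?_⟩
  · push_cast
    rw [← hz]
    linear_combination 2 * h2
  · rw [abs_neg, neg_eq_zero]
    exact hzc

/-- the relation of a basis and one more root -/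
theorem lat_rel_cons (h : SwBasis l) (p : ℝ × RootD n) (X : ℕ → Vec n)
    (hX : ∀ i, i < l.length → IsDual l i (X i)) :
    IsRel (1 :: (List.range l.length).map (fun i => - dot (X i) p.2.vec)) (p :: l) := by
  refine ⟨by simp, ?_⟩
  rw [latRel_cons, one_smul]
  obtain ⟨c, hc, hcp⟩ := lat_span_exists_relSum (lat_basis_span h) p.2.vec
  have e : (List.range l.length).map (fun i => - dot (X i) p.2.vec) = c.map ((-1) * ·) := by
    apply latRel_ext 0 (by simp [hc])
    intro i hi
    have hi' : i < l.length := by simpa using hi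
    rw [latRel_getD_map, ← lat_dual_relSum (hX i hi') hi' c, hcp, List.getD_eq_getElem _ _ hi]
    simp
  rw [e, latRel_smul, hcp]
  simp

end Real

section Prim

variable {r r' : List ℤ}

theorem latRel_getD_mapZ {α : Type} (f : ℤ → α) (z : α) (hf : f 0 = z) (r : List ℤ) (i : ℕ) :
    (r.map f).getD i z = f (r.getD i 0) := by
  rw [← hf]
  exact List.getD_map (l := r) (n := i) (d := (0 : ℤ)) f

/-- NOTE: in `IsPrimRel`, `SwSpanZ`, `SwGenQ` the term `r.map (fun z => (z : ℝ))` elaborates to the identity map of the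
list `↑r` (monadic coercion `List ℤ → List ℝ`).  These two lemmas bring it to the normal form. -/
theorem latRel_coe (r : List ℤ) : (↑r : List ℝ) = r.map (fun z : ℤ => (z : ℝ)) := by
  induction r with
  | nil => rfl
  | cons a r ih =>
    simp only [List.map_cons]
    rw [← ih]
    rfl

theorem latRel_castList (r : List ℤ) :
    (r.map (fun z => (z : ℝ)) : List ℝ) = r.map (fun z : ℤ => (z : ℝ)) := by
  rw [latRel_coe, List.map_id_fun', id]

theorem latRel_prim_rel (hr : IsPrimRel r l) : IsRel (r.map (fun z : ℤ => (z : ℝ))) l :=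
  ⟨by rw [List.length_map]; exact hr.1, by rw [← latRel_castList]; exact hr.2.1⟩

theorem lat_primRel_rel (hr : IsPrimRel r l) : IsRel (r.map (fun z => (z : ℝ))) l := by
  rw [latRel_castList]
  exact latRel_prim_rel hr

theorem lat_primRel_ne (hr : IsPrimRel r l) : ∃ a ∈ r, a ≠ 0 := by
  by_contra h
  push Not at h
  have := hr.2.2 2 (fun a ha => by rw [h a ha]; exact dvd_zero _)
  rw [Int.isUnit_iff] at this
  omega

theorem latRel_prim_ne (hr : IsPrimRel r l) : ∃ a ∈ r.map (fun z : ℤ => (z : ℝ)), a ≠ 0 := by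
  obtain ⟨a, ha, ha0⟩ := lat_primRel_ne hr
  exact ⟨(a : ℝ), List.mem_map.2 ⟨a, ha, rfl⟩, by exact_mod_cast ha0⟩

theorem lat_primRel_neg (hr : IsPrimRel r l) : IsPrimRel (r.map Neg.neg) l := by
  refine ⟨by rw [List.length_map]; exact hr.1, ?_, ?_⟩
  · have e : (r.map Neg.neg).map (fun z : ℤ => (z : ℝ))
        = (r.map (fun z : ℤ => (z : ℝ))).map ((-1) * ·) := by
      rw [List.map_map, List.map_map]
      apply List.map_congr_left
      intro a _
      simp
    rw [latRel_castList, e, latRel_smul, (latRel_prim_rel hr).2, smul_zero]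
  · intro d hd
    apply hr.2.2
    intro a ha
    have := hd (-a) (List.mem_map.2 ⟨a, ha, rfl⟩)
    exact (dvd_neg.1 this)

theorem lat_primRel_exists (hl : n < l.length) : ∃ r, IsPrimRel r l := by
  choose w hw using fun (i : Fin l.length) (a : Fin n) => lat_vec_int (l.get i).2 a
  have hI : ¬ LinearIndependent ℤ w := by
    intro h
    have := h.fintype_card_le_finrank
    rw [Fintype.card_fin, Module.finrank_fin_fun] at this
    omega
  obtain ⟨g, hg, i0, hi0⟩ := Fintype.not_linearIndependent_iff.1 hI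
  obtain ⟨g', hg', hgcd⟩ := Finset.extract_gcd g (Finset.univ_nonempty_iff.2 ⟨i0⟩)
  have hD : Finset.univ.gcd g ≠ 0 := by
    intro h
    rw [Finset.gcd_eq_zero_iff] at h
    exact hi0 (h i0 (Finset.mem_univ _))
  have hsum : ∑ i, g' i • w i = 0 := by
    have : Finset.univ.gcd g • ∑ i, g' i • w i = 0 := by
      rw [Finset.smul_sum, ← hg]
      apply Finset.sum_congr rfl
      intro i _
      rw [smul_smul, ← hg' i (Finset.mem_univ _)]
    exact (smul_eq_zero.1 this).resolve_left hD
  refine ⟨List.ofFn g', by simp, ?_, ?_⟩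
  · rw [latRel_castList, List.map_ofFn, lat_relSum_ofFn]
    funext a
    have h1 := congrFun hsum a
    simp only [Finset.sum_apply, Pi.smul_apply, smul_eq_mul, Pi.zero_apply] at h1
    simp only [Finset.sum_apply, Pi.smul_apply, smul_eq_mul, Pi.zero_apply, Function.comp]
    have h2 : (∑ i, ((g' i : ℤ) : ℝ) * (l.get i).2.vec a) = ((∑ i, g' i * w i a : ℤ) : ℝ) := by
      push_cast
      apply Finset.sum_congr rfl
      intro i _
      rw [hw]
    rw [h2, h1, Int.cast_zero]
  · intro d hd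
    have : d ∣ Finset.univ.gcd g' :=
      Finset.dvd_gcd (fun i _ => hd _ ((List.mem_ofFn' _ _).2 ⟨i, rfl⟩))
    rw [hgcd] at this
    exact isUnit_of_dvd_one this

theorem latRel_of_prim (hs : SwSpan l) (hl : l.length = n + 1) (hr : IsPrimRel r l)
    {d : List ℝ} (hd : IsRel d l) : ∃ s : ℝ, d = r.map (fun a : ℤ => s * (a : ℝ)) := by
  obtain ⟨s, hs'⟩ := lat_rel_line hs hl (latRel_prim_rel hr) (latRel_prim_ne hr) hd
  exact ⟨s, by rw [hs', List.map_map]; rfl⟩

/-- every real relation is a multiple of the primitive one -/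
theorem lat_rel_of_primRel (hs : SwSpan l) (hl : l.length = n + 1) (hr : IsPrimRel r l)
    {d : List ℝ} (hd : IsRel d l) : ∃ s : ℝ, d = r.map (fun a => s * (a : ℝ)) := by
  obtain ⟨s, hs'⟩ := latRel_of_prim hs hl hr hd
  exact ⟨s, by rw [hs', latRel_coe, List.map_map]; rfl⟩

theorem latRel_lt_of_getD_ne {α : Type} {z : α} {r : List α} {i : ℕ} (h : r.getD i z ≠ z) : i < r.length := by
  by_contra hcon
  exact h (List.getD_eq_default _ _ (not_lt.1 hcon))

/-- one entry is `± 1`, all entries are multiples of it of size at most `2` -/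
theorem latRel_prim_key (hs : SwSpan l) (hl : l.length = n + 1) (hr : IsPrimRel r l) :
    ∃ i, |r.getD i 0| = 1 ∧ ∀ j, |r.getD j 0| ≤ 2 := by
  obtain ⟨a, ha, ha0⟩ := lat_primRel_ne hr
  obtain ⟨i0, hi0, rfl⟩ := List.mem_iff_getElem.1 ha
  have hne : ((Finset.range r.length).filter fun i => r.getD i 0 ≠ 0).Nonempty :=
    ⟨i0, Finset.mem_filter.2 ⟨Finset.mem_range.2 hi0, by rw [List.getD_eq_getElem _ _ hi0]; exact ha0⟩⟩
  obtain ⟨i, hiS, hmin⟩ := Finset.exists_min_image _ (fun i => |r.getD i 0|) hne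
  have hi0' : r.getD i 0 ≠ 0 := (Finset.mem_filter.1 hiS).2
  have hiR : (r.map (fun z : ℤ => (z : ℝ))).getD i 0 ≠ 0 := by
    rw [latRel_getD_cast]
    exact_mod_cast hi0'
  have hmul : ∀ j, ∃ k : ℤ, r.getD j 0 = k * r.getD i 0 ∧ |k| ≤ 2 := by
    intro j
    obtain ⟨z, hz, hzc⟩ := lat_rel_ratio hs hl (latRel_prim_rel hr) i j hiR
    rw [latRel_getD_cast, latRel_getD_cast] at hz
    have hz' : 2 * r.getD j 0 = z * r.getD i 0 := by exact_mod_cast hz
    rcases hzc with h | h | h | h
    · refine ⟨0, ?_, by norm_num⟩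
      rw [h] at hz'
      omega
    · exfalso
      have h1 : 2 * |r.getD j 0| = |r.getD i 0| := by
        have := congrArg abs hz'
        rw [abs_mul, abs_mul, h] at this
        simpa using this
      have hj0 : r.getD j 0 ≠ 0 := by
        intro h0
        rw [h0, abs_zero, mul_zero] at h1
        exact hi0' (abs_eq_zero.1 h1.symm)
      have h2 := hmin j (Finset.mem_filter.2 ⟨Finset.mem_range.2 (latRel_lt_of_getD_ne hj0), hj0⟩)
      have h3 : 0 < |r.getD j 0| := abs_pos.2 hj0
      omega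
    · rcases (abs_eq (by norm_num)).1 h with rfl | rfl
      · exact ⟨1, by omega, by norm_num⟩
      · exact ⟨-1, by omega, by norm_num⟩
    · rcases (abs_eq (by norm_num)).1 h with rfl | rfl
      · exact ⟨2, by omega, by norm_num⟩
      · exact ⟨-2, by omega, by norm_num⟩
  have hu : IsUnit (r.getD i 0) := by
    apply hr.2.2
    intro a ha
    obtain ⟨j, hj, rfl⟩ := List.mem_iff_getElem.1 ha
    obtain ⟨k, hk, _⟩ := hmul j
    rw [← List.getD_eq_getElem _ 0 hj, hk]
    exact dvd_mul_left _ _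
  have h1 : |r.getD i 0| = 1 := by
    rcases Int.isUnit_iff.1 hu with h | h <;> rw [h] <;> norm_num
  refine ⟨i, h1, fun j => ?_⟩
  obtain ⟨k, hk, hk2⟩ := hmul j
  rw [hk, abs_mul, h1, mul_one]
  exact hk2

theorem lat_primRel_bound (hs : SwSpan l) (hl : l.length = n + 1) (hr : IsPrimRel r l) :
    ∀ a ∈ r, |a| ≤ 2 := by
  obtain ⟨_, _, h⟩ := latRel_prim_key hs hl hr
  intro a ha
  obtain ⟨j, hj, rfl⟩ := List.mem_iff_getElem.1 ha
  rw [← List.getD_eq_getElem _ 0 hj]
  exact h j

theorem lat_primRel_unit (hs : SwSpan l) (hl : l.length = n + 1) (hr : IsPrimRel r l) :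
    ∃ a ∈ r, |a| = 1 := by
  obtain ⟨i, h1, _⟩ := latRel_prim_key hs hl hr
  have hi : i < r.length := latRel_lt_of_getD_ne (z := 0) (by
    intro h
    rw [h] at h1
    simp at h1)
  refine ⟨r[i], List.getElem_mem hi, ?_⟩
  rw [← List.getD_eq_getElem _ 0 hi]
  exact h1

theorem lat_primRel_unique (hs : SwSpan l) (hl : l.length = n + 1) (hr : IsPrimRel r l)
    (hr' : IsPrimRel r' l) : r' = r ∨ r' = r.map Neg.neg := by
  obtain ⟨s, hs'⟩ := latRel_of_prim hs hl hr (latRel_prim_rel hr')
  obtain ⟨i, hi1, _⟩ := latRel_prim_key hs hl hr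
  have hent : ∀ j, ((r'.getD j 0 : ℤ) : ℝ) = s * ((r.getD j 0 : ℤ) : ℝ) := by
    intro j
    rw [← latRel_getD_cast, hs', latRel_getD_mapZ (fun a : ℤ => s * (a : ℝ)) 0 (by simp)]
  obtain ⟨k, hk⟩ : ∃ k : ℤ, s = k := by
    have h := hent i
    rcases (abs_eq (by norm_num)).1 hi1 with h1 | h1
    · refine ⟨r'.getD i 0, ?_⟩
      rw [h1] at h
      rw [h]
      simp
    · refine ⟨-r'.getD i 0, ?_⟩
      rw [h1] at h
      push_cast
      rw [h]
      simp
  have hent' : ∀ j, r'.getD j 0 = k * r.getD j 0 := by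
    intro j
    have := hent j
    rw [hk] at this
    exact_mod_cast this
  have hu : IsUnit k := hr'.2.2 k (fun a ha => by
    obtain ⟨j, hj, rfl⟩ := List.mem_iff_getElem.1 ha
    rw [← List.getD_eq_getElem _ 0 hj, hent']
    exact dvd_mul_right _ _)
  rcases Int.isUnit_iff.1 hu with rfl | rfl
  · left
    apply latRel_ext 0 (by rw [hr.1, hr'.1])
    intro j _
    rw [hent']
    ring
  · right
    apply latRel_ext 0 (by rw [List.length_map, hr.1, hr'.1])
    intro j _
    rw [hent', latRel_getD_mapZ Neg.neg 0 (by simp)]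
    ring

theorem lat_primRel_entry_ne (l₁ l₂ : List (ℝ × RootD n)) (p : ℝ × RootD n)
    (hr : IsPrimRel r (l₁ ++ p :: l₂)) (hI : SwIndep (l₁ ++ l₂)) : r.getD l₁.length 0 ≠ 0 := by
  have := lat_rel_entry_ne_mid l₁ l₂ p (latRel_prim_rel hr) (latRel_prim_ne hr) hI
  rw [latRel_getD_cast] at this
  exact_mod_cast this

/-- half-integral coefficient vectors with right-hand side in `Q(D_n)` -/
theorem lat_half_int (hg : SwGenQ l) (hl : l.length = n + 1) (hr : IsPrimRel r l) (m : List ℝ)
    (hm : m.length = l.length) (hh : ∀ a ∈ m, HalfInt a) (hQ : InQD (relSum m l)) :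
    (∀ a ∈ m, ∃ z : ℤ, a = z) ∨
      List.Forall₂ (fun (m : ℝ) (a : ℤ) => ∃ z : ℤ, m + (1 / 2) * a = z) m r := by
  have hs := lat_genQ_span hg
  obtain ⟨c, hc, hcm⟩ := hg _ hQ
  rw [latRel_castList] at hcm
  have hd : IsRel (List.ofFn fun i : Fin l.length => m.getD i 0 - ((c.getD i 0 : ℤ) : ℝ)) l := by
    refine ⟨by simp, ?_⟩
    rw [lat_relSum_ofFn]
    simp only [sub_smul, Finset.sum_sub_distrib]
    rw [← lat_relSum_eq_sum, sub_eq_zero, ← hcm, lat_relSum_eq_sum]
    apply Finset.sum_congr rfl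
    intro i _
    rw [latRel_getD_cast]
  obtain ⟨s, hs'⟩ := latRel_of_prim hs hl hr hd
  have hent : ∀ j, j < l.length →
      m.getD j 0 = ((c.getD j 0 : ℤ) : ℝ) + s * ((r.getD j 0 : ℤ) : ℝ) := by
    intro j hj
    have h1 := congrArg (fun L : List ℝ => L.getD j 0) hs'
    beta_reduce at h1
    rw [latRel_getD_mapZ (fun a : ℤ => s * (a : ℝ)) 0 (by simp),
      List.getD_eq_getElem _ _ (by simpa using hj), List.getElem_ofFn] at h1
    linarith
  obtain ⟨i, hi1, _⟩ := latRel_prim_key hs hl hr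
  have hil : i < l.length := by
    rw [← hr.1]
    exact latRel_lt_of_getD_ne (z := 0) (by
      intro h
      rw [h] at hi1
      simp at hi1)
  obtain ⟨t, ht⟩ : ∃ t : ℤ, 2 * s = t := by
    obtain ⟨z, hz⟩ := hh (m.getD i 0) (by
      rw [List.getD_eq_getElem _ _ (hm ▸ hil)]
      exact List.getElem_mem _)
    have h := hent i hil
    rcases (abs_eq (by norm_num)).1 hi1 with h1 | h1
    · refine ⟨z - 2 * c.getD i 0, ?_⟩
      rw [h1] at h
      push_cast
      rw [← hz, h]
      push_cast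
      ring
    · refine ⟨-(z - 2 * c.getD i 0), ?_⟩
      rw [h1] at h
      push_cast
      rw [← hz, h]
      push_cast
      ring
  rcases Int.even_or_odd' t with ⟨k, rfl | rfl⟩
  · left
    have hsk : s = k := by
      push_cast at ht
      linarith
    intro a ha
    obtain ⟨j, hj, rfl⟩ := List.mem_iff_getElem.1 ha
    refine ⟨c.getD j 0 + k * r.getD j 0, ?_⟩
    rw [← List.getD_eq_getElem _ 0 hj, hent j (hm ▸ hj), hsk]
    push_cast
    ring
  · right
    have hsk : s = k + 1 / 2 := by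
      push_cast at ht
      linarith
    rw [List.forall₂_iff_get]
    refine ⟨by rw [hm, hr.1], fun j h1 h2 => ⟨c.getD j 0 + (k + 1) * r.getD j 0, ?_⟩⟩
    rw [List.get_eq_getElem, List.get_eq_getElem, ← List.getD_eq_getElem _ 0 h1,
      ← List.getD_eq_getElem _ 0 h2, hent j (hm ▸ h1), hsk]
    push_cast
    ring

end Prim

end Claimed.Agent.R282
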