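import Claimed.Agent.R282.S34.Lat.Dual

/-!
# Row 282, package BP-S34-B, file 3: the core phase `phase l k a` (S34/Defs.lean)

LEAF L-LAT-3 = this file (~300 lines; uses only the STATEMENTS of `Lat/Basic`, `Lat/Dual`).

`l` a basis.  The `∃ c` in the definition of `phase` holds (`lat_span_exists_relSum`) and `c` is unique; `c_j = x_j · e_a = x_j a` for the dual
vector `x_j` (`lat_dual_relSum`, `sc_dot_single`/unfold `dot`).  `relSum (c.take k) l a = ∑_{j<k} c_j (β_j)_a`:
`lat_relSum_eq_sum` + `List.getD_take`, or directly `relSum (c.take (k+1)) l = relSum (c.take k) l + c_k • β_k` by induction on `l`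
(`lat_relSum_take_succ`).  So `lat_phase_succ`.  All terms are `≥ 0` (`lat_term_mem`): monotone; `phase l 0 = 0`, `phase l l.length = 1`
(`c.take l.length = c`, `relSum c l a = e_a a = 1`): values in `[0,1] ∩ (1/2)ℤ` (induction: `2 * phase ∈ ℤ`).
Bridge at `k` with the axis `p` in the support: the term is `1`, `0 ≤ phase k p`, `phase (k+1) p ≤ 1`: jump `0 → 1`.
-/

set_option autoImplicit false

namespace Claimed.Agent.R282

variable {n : ℕ} {l : List (ℝ × RootD n)}

theorem lat_getD_take (c : List ℝ) (k i : ℕ) :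
    (c.take k).getD i 0 = if i < k then c.getD i 0 else 0 := by
  by_cases h : i < k
  · rw [if_pos h]
    simp only [List.getD_eq_getElem?_getD, List.getElem?_take, if_pos h]
  · rw [if_neg h]
    simp only [List.getD_eq_getElem?_getD, List.getElem?_take, if_neg h]
    rfl

theorem lat_relSum_take_succ (c : List ℝ) (l : List (ℝ × RootD n)) (k : ℕ) (hk : k < l.length) :
    relSum (c.take (k + 1)) l = relSum (c.take k) l + c.getD k 0 • l[k].2.vec := by
  rw [lat_relSum_eq_sum, lat_relSum_eq_sum]
  have h1 : c.getD k 0 • l[k].2.vec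
      = ∑ i : Fin l.length, (if (i : ℕ) = k then c.getD i 0 else 0) • (l.get i).2.vec := by
    rw [Finset.sum_eq_single (⟨k, hk⟩ : Fin l.length)]
    · simp
    · intro j _ hj
      rw [if_neg (fun h => hj (Fin.ext h)), zero_smul]
    · intro h; exact absurd (Finset.mem_univ _) h
  rw [h1, ← Finset.sum_add_distrib]
  refine Finset.sum_congr rfl fun i _ => ?_
  rw [← add_smul, lat_getD_take, lat_getD_take]
  congr 1
  by_cases h2 : (i : ℕ) < k
  · rw [if_pos h2, if_pos (by omega), if_neg (by omega), add_zero]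
  · by_cases h3 : (i : ℕ) = k
    · rw [if_neg h2, if_pos (by omega), if_pos h3, zero_add]
    · rw [if_neg h2, if_neg (by omega), if_neg h3, zero_add]

theorem lat_phase_zero (l : List (ℝ × RootD n)) (a : Fin n) : phase l 0 a = 0 := by
  unfold phase
  split_ifs
  · simp [relSum]
  · rfl

/-- the phase in terms of ANY solution `c` -/
theorem lat_phase_eq (h : SwBasis l) (a : Fin n) {c : List ℝ} (hc : c.length = l.length)
    (hr : relSum c l = Pi.single a 1) (k : ℕ) : phase l k a = relSum (c.take k) l a := by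
  have hex : ∃ c : List ℝ, c.length = l.length ∧ relSum c l = Pi.single a 1 := ⟨c, hc, hr⟩
  unfold phase
  rw [dif_pos hex]
  have := lat_indep_relSum_inj h.1 hex.choose_spec.1 hc (hex.choose_spec.2.trans hr.symm)
  rw [this]

theorem lat_dot_single (x : Vec n) (a : Fin n) : dot x (Pi.single a 1) = x a := by
  unfold dot
  rw [Finset.sum_eq_single a]
  · simp
  · intro b _ hb; simp [hb]
  · intro h; exact absurd (Finset.mem_univ _) h

theorem lat_phase_succ (h : SwBasis l) {k : ℕ} (hk : k < l.length) {x : Vec n} (hx : IsDual l k x)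
    (a : Fin n) : phase l (k + 1) a = phase l k a + x a * l[k].2.vec a := by
  obtain ⟨c, hc, hr⟩ := lat_span_exists_relSum (lat_basis_span h) (Pi.single a 1)
  rw [lat_phase_eq h a hc hr, lat_phase_eq h a hc hr, lat_relSum_take_succ c l k hk]
  have h1 := lat_dual_relSum hx hk c
  rw [hr, lat_dot_single] at h1
  rw [← h1]
  simp

theorem lat_phase_ge (h : SwBasis l) {k : ℕ} (hk : l.length ≤ k) (a : Fin n) : phase l k a = 1 := by
  obtain ⟨c, hc, hr⟩ := lat_span_exists_relSum (lat_basis_span h) (Pi.single a 1)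
  rw [lat_phase_eq h a hc hr, List.take_of_length_le (hc ▸ hk), hr]
  simp

theorem lat_phase_length (h : SwBasis l) (a : Fin n) : phase l l.length a = 1 :=
  lat_phase_ge h le_rfl a

theorem lat_phase_le_succ (h : SwBasis l) (k : ℕ) (a : Fin n) :
    phase l k a ≤ phase l (k + 1) a := by
  by_cases hk : k < l.length
  · obtain ⟨x, hx⟩ := lat_dual_exists h.1 hk
    rw [lat_phase_succ h hk hx]
    rcases lat_term_mem (lat_basis_span h) hk hx a with h1 | h1 | h1 <;> rw [h1] <;> norm_num
  · rw [lat_phase_ge h (by omega), lat_phase_ge h (by omega)]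

theorem lat_phase_mono (h : SwBasis l) {k k' : ℕ} (hkk : k ≤ k') (a : Fin n) :
    phase l k a ≤ phase l k' a := by
  induction k', hkk using Nat.le_induction with
  | base => exact le_rfl
  | succ m _ ih => exact ih.trans (lat_phase_le_succ h m a)

theorem lat_phase_nonneg (h : SwBasis l) (k : ℕ) (a : Fin n) : 0 ≤ phase l k a := by
  rw [← lat_phase_zero l a]
  exact lat_phase_mono h (Nat.zero_le k) a

theorem lat_phase_le_one (h : SwBasis l) (k : ℕ) (a : Fin n) : phase l k a ≤ 1 := by
  rw [← lat_phase_ge h (le_max_right k l.length) a]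
  exact lat_phase_mono h (le_max_left k l.length) a

theorem lat_phase_half (h : SwBasis l) (k : ℕ) (a : Fin n) : ∃ z : ℤ, 2 * phase l k a = z := by
  induction k with
  | zero => exact ⟨0, by rw [lat_phase_zero]; simp⟩
  | succ k ih =>
    obtain ⟨z, hz⟩ := ih
    by_cases hk : k < l.length
    · obtain ⟨x, hx⟩ := lat_dual_exists h.1 hk
      rw [lat_phase_succ h hk hx, mul_add, hz]
      rcases lat_term_mem (lat_basis_span h) hk hx a with h1 | h1 | h1 <;> rw [h1]
      · exact ⟨z, by simp⟩
      · exact ⟨z + 1, by push_cast; ring⟩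
      · exact ⟨z + 2, by push_cast; ring⟩
    · exact ⟨2, by rw [lat_phase_ge h (by omega)]; norm_num⟩

theorem lat_phase_mem (h : SwBasis l) (k : ℕ) (a : Fin n) :
    phase l k a = 0 ∨ phase l k a = 1 / 2 ∨ phase l k a = 1 := by
  obtain ⟨z, hz⟩ := lat_phase_half h k a
  have h0 := lat_phase_nonneg h k a
  have h1 := lat_phase_le_one h k a
  have hz0 : (0 : ℝ) ≤ z := by rw [← hz]; linarith
  have hz2 : (z : ℝ) ≤ 2 := by rw [← hz]; linarith
  have hz0' : 0 ≤ z := by exact_mod_cast hz0
  have hz2' : z ≤ 2 := by exact_mod_cast hz2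
  have : z = 0 ∨ z = 1 ∨ z = 2 := by omega
  rcases this with rfl | rfl | rfl
  · left; push_cast at hz; linarith
  · right; left; push_cast at hz; linarith
  · right; right; push_cast at hz; linarith

/-- the phase only changes at switches incident to the axis -/
theorem lat_phase_off (h : SwBasis l) {k : ℕ} (hk : k < l.length) (a : Fin n) (h1 : a ≠ l[k].2.i)
    (h2 : a ≠ l[k].2.j) : phase l (k + 1) a = phase l k a := by
  obtain ⟨x, hx⟩ := lat_dual_exists h.1 hk
  rw [lat_phase_succ h hk hx, lat_term_off hk a h1 h2, add_zero]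

/-- at a bridge the phase of the axis in the support jumps `0 → 1`, the other axis is unchanged -/
theorem lat_phase_bridge (h : SwBasis l) {k : ℕ} (hk : k < l.length) (hb : IsBridge l k) :
    (phase l k l[k].2.i = 0 ∧ phase l (k + 1) l[k].2.i = 1 ∧
        phase l (k + 1) l[k].2.j = phase l k l[k].2.j) ∨
      (phase l k l[k].2.j = 0 ∧ phase l (k + 1) l[k].2.j = 1 ∧
        phase l (k + 1) l[k].2.i = phase l k l[k].2.i) := by
  obtain ⟨x, hx, h1⟩ := hb
  have ei := lat_phase_succ h hk hx l[k].2.i
  have ej := lat_phase_succ h hk hx l[k].2.j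
  rcases lat_term_bridge hk hx h1 with ⟨t1, t2⟩ | ⟨t1, t2⟩
  · left
    rw [t1] at ei; rw [t2] at ej
    have a1 := lat_phase_nonneg h k l[k].2.i
    have a2 := lat_phase_le_one h (k + 1) l[k].2.i
    refine ⟨by linarith, by linarith, by linarith⟩
  · right
    rw [t1] at ei; rw [t2] at ej
    have a1 := lat_phase_nonneg h k l[k].2.j
    have a2 := lat_phase_le_one h (k + 1) l[k].2.j
    refine ⟨by linarith, by linarith, by linarith⟩

/-- at a cycle edge both axes advance by `1/2` -/
theorem lat_phase_cyc (h : SwBasis l) {k : ℕ} (hk : k < l.length) (hc : IsCyc l k) :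
    phase l (k + 1) l[k].2.i = phase l k l[k].2.i + 1 / 2 ∧
      phase l (k + 1) l[k].2.j = phase l k l[k].2.j + 1 / 2 := by
  obtain ⟨x, hx, h2⟩ := hc
  obtain ⟨t1, t2⟩ := lat_term_cyc hk hx h2
  exact ⟨by rw [lat_phase_succ h hk hx, t1], by rw [lat_phase_succ h hk hx, t2]⟩

end Claimed.Agent.R282
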