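import Claimed.Agent.R282.Sched.Calc
import Claimed.Agent.R282.Defs.Dot

/-!
# Row 282, package BP-S34-B (architect helper90): lattices WITHOUT graph theory.  File 1: definitions, linear algebra

Everything is about a list of switches `l : List (ℝ × RootD n)`; only the roots `p.2` matter.  Prefix `lat_`.
Files: `Lat/Basic` (defs + linear algebra), `Lat/Dual` (the DUAL lemma, bridges and cycle edges, permutation roots),
`Lat/Phase` (`phase`), `Lat/SpanZ` (`ℤ`-spans), `Lat/Exc` (exceptional bases), `Lat/Rel` (`n+1` roots of rank `n`, L3.5),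
`Lat/Pot` (potential).   Paper-free; `Sched/*` (`sc_*`) and `Defs/Dot` may be cited.

LEAF L-LAT-1 = this file.  PLAN.
* `lat_relSum_eq_sum`: induction on `l` generalising `c` (cases on `c`; `Fin.sum_univ_succ`; `relSum [] l = 0`, `relSum c [] = 0`).
* `lat_dot_relSum`: `dot` is linear (`dot_add_right`, `dot_smul_right`; `Finset` induction or unfold `dot` + `Finset.sum_comm`).
* functionals on `Vec n` are `dot z`: `φ v = ∑ a, v a * φ (Pi.single a 1)` (`LinearMap.pi_apply_eq_sum_univ`).
* `lat_basis_span`: `LinearIndependent.span_eq_top_of_card_eq_finrank` (`Module.finrank_fin_fun`), `z ⊥ span ⟹ dot z z = 0`.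
* `lat_span_exists_relSum`: if `span ≠ ⊤` there is a nonzero functional vanishing on it (`Submodule.exists_le_ker_of_lt_top`);
  write an element of the span as a `Fintype` sum (`Submodule.mem_span_range_iff_exists_fun`), `lat_relSum_ofFn`.
* `lat_dual_exists`: `hI.repr` / `Basis.extend` / `LinearMap.exists_extend` give a functional with values `δ_ij`.
-/

set_option autoImplicit false

namespace Claimed.Agent.R282

variable {n : ℕ}

/-! ## definitions of the package -/

/-- `n` independent switch roots -/
def SwBasis (l : List (ℝ × RootD n)) : Prop := SwIndep l ∧ l.length = n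

/-- the switch roots span `ℝ^n` (dual formulation) -/
def SwSpan (l : List (ℝ × RootD n)) : Prop :=
  ∀ z : Vec n, (∀ p ∈ l, dot z p.2.vec = 0) → z = 0

/-- `x` is dual to the `i`-th root of the list -/
def IsDual (l : List (ℝ × RootD n)) (i : ℕ) (x : Vec n) : Prop :=
  ∀ (j : ℕ) (hj : j < l.length), dot x l[j].2.vec = if j = i then 1 else 0

open Classical in
/-- support of a vector -/
noncomputable def vsupp (x : Vec n) : Finset (Fin n) := Finset.univ.filter fun a => x a ≠ 0

/-- the `i`-th edge is a bridge: it has a dual vector with entries `0, ±1` -/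
def IsBridge (l : List (ℝ × RootD n)) (i : ℕ) : Prop :=
  ∃ x, IsDual l i x ∧ ∀ a, x a = 0 ∨ |x a| = 1

/-- the `i`-th edge is a cycle edge: it has a dual vector with entries `0, ±1/2` -/
def IsCyc (l : List (ℝ × RootD n)) (i : ℕ) : Prop :=
  ∃ x, IsDual l i x ∧ ∀ a, x a = 0 ∨ |x a| = 1 / 2

/-- `v` is an integral combination of the switch roots -/
def SwSpanZ (l : List (ℝ × RootD n)) (v : Vec n) : Prop :=
  ∃ c : List ℤ, c.length = l.length ∧ relSum (c.map (fun z => (z : ℝ))) l = v

/-- integral vectors -/
def IsIntV (v : Vec n) : Prop := ∀ a, ∃ z : ℤ, v a = z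

/-- real relations among the switch roots -/
def IsRel (d : List ℝ) (l : List (ℝ × RootD n)) : Prop := d.length = l.length ∧ relSum d l = 0

theorem lat_mem_vsupp (x : Vec n) (a : Fin n) : a ∈ vsupp x ↔ x a ≠ 0 := by
  classical
  simp [vsupp]

/-! ## roots -/

theorem lat_vec_i (β : RootD n) : β.vec β.i = sgnB β.si := by
  simp [RootD.vec, β.ne]

theorem lat_vec_j (β : RootD n) : β.vec β.j = sgnB β.sj := by
  simp [RootD.vec, β.ne.symm]

theorem lat_vec_off (β : RootD n) (a : Fin n) (hi : a ≠ β.i) (hj : a ≠ β.j) : β.vec a = 0 := by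
  simp [RootD.vec, hi, hj]

/-- pairing with a root (proved copy of `sc_dot_vec`) -/
theorem lat_dot_vec (x : Vec n) (β : RootD n) :
    dot x β.vec = sgnB β.si * x β.i + sgnB β.sj * x β.j := by
  unfold dot RootD.vec
  simp only [mul_add, Finset.sum_add_distrib, mul_ite, mul_zero, Finset.sum_ite_eq',
    Finset.mem_univ, if_true]
  ring

theorem lat_sgnB_abs (b : Bool) : |sgnB b| = 1 := by
  cases b <;> simp [sgnB]

theorem lat_sgnB_sq (b : Bool) : sgnB b * sgnB b = 1 := by
  cases b <;> simp [sgnB]

theorem lat_sgnB_cases (b : Bool) : sgnB b = 1 ∨ sgnB b = -1 := by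
  cases b <;> simp [sgnB]

/-- sum of the coordinates of a root over a set -/
theorem lat_vec_sum (β : RootD n) (B : Finset (Fin n)) :
    ∑ a ∈ B, β.vec a = (if β.i ∈ B then sgnB β.si else 0) + (if β.j ∈ B then sgnB β.sj else 0) := by
  unfold RootD.vec
  simp only [Finset.sum_add_distrib, Finset.sum_ite_eq']

/-- sum of the coordinates of a root over a set containing both or none of its axes -/
theorem lat_vec_sum_closed (β : RootD n) (B : Finset (Fin n)) (h : β.i ∈ B ↔ β.j ∈ B) :
    ∃ z : ℤ, ∑ a ∈ B, β.vec a = 2 * z := by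
  rw [lat_vec_sum]
  by_cases hi : β.i ∈ B
  · have hj := h.1 hi
    rw [if_pos hi, if_pos hj]
    rcases lat_sgnB_cases β.si with h1 | h1 <;> rcases lat_sgnB_cases β.sj with h2 | h2 <;>
      rw [h1, h2]
    · exact ⟨1, by norm_num⟩
    · exact ⟨0, by norm_num⟩
    · exact ⟨0, by norm_num⟩
    · exact ⟨-1, by norm_num⟩
  · have hj : β.j ∉ B := fun hj => hi (h.2 hj)
    rw [if_neg hi, if_neg hj]
    exact ⟨0, by norm_num⟩

theorem lat_vec_int (β : RootD n) : IsIntV β.vec := by
  intro a
  refine ⟨(if a = β.i then (if β.si then -1 else 1) else 0)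
    + (if a = β.j then (if β.sj then -1 else 1) else 0), ?_⟩
  unfold RootD.vec sgnB
  push_cast
  rfl

/-! ## `relSum` as a finite sum -/

theorem lat_relSum_eq_sum (c : List ℝ) (l : List (ℝ × RootD n)) :
    relSum c l = ∑ i : Fin l.length, c.getD i 0 • (l.get i).2.vec := by
  induction l generalizing c with
  | nil => simp [relSum]
  | cons p l ih =>
    cases c with
    | nil => simp [relSum]
    | cons a c =>
      have h1 : relSum (a :: c) (p :: l) = a • p.2.vec + relSum c l := by
        simp [relSum]
      rw [h1, ih c]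
      simp only [List.length_cons]
      rw [Fin.sum_univ_succ]
      simp

theorem lat_relSum_ofFn (l : List (ℝ × RootD n)) (f : Fin l.length → ℝ) :
    relSum (List.ofFn f) l = ∑ i, f i • (l.get i).2.vec := by
  rw [lat_relSum_eq_sum]
  refine Finset.sum_congr rfl fun i _ => ?_
  congr 1
  rw [List.getD_eq_getElem _ _ (by simp)]
  simp

theorem lat_dot_sum {ι : Type*} (s : Finset ι) (x : Vec n) (f : ι → Vec n) :
    dot x (∑ i ∈ s, f i) = ∑ i ∈ s, dot x (f i) := by
  classical
  induction s using Finset.induction_on with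
  | empty => simp [dot_zero_right]
  | insert a s ha ih => rw [Finset.sum_insert ha, Finset.sum_insert ha, dot_add_right, ih]

theorem lat_dot_relSum (x : Vec n) (c : List ℝ) (l : List (ℝ × RootD n)) :
    dot x (relSum c l) = ∑ i : Fin l.length, c.getD i 0 * dot x (l.get i).2.vec := by
  rw [lat_relSum_eq_sum, lat_dot_sum]
  exact Finset.sum_congr rfl fun i _ => dot_smul_right _ _ _

/-- a dual vector reads off the coefficient -/
theorem lat_dual_relSum {l : List (ℝ × RootD n)} {i : ℕ} {x : Vec n} (hx : IsDual l i x)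
    (hi : i < l.length) (c : List ℝ) : dot x (relSum c l) = c.getD i 0 := by
  rw [lat_dot_relSum, Finset.sum_eq_single (⟨i, hi⟩ : Fin l.length)]
  · have := hx i hi
    simp only [List.get_eq_getElem]
    rw [this]; simp
  · intro j _ hj
    have := hx j.1 j.2
    simp only [List.get_eq_getElem]
    rw [this, if_neg (fun h => hj (Fin.ext h))]; simp
  · intro h; exact absurd (Finset.mem_univ _) h

/-! ## linear algebra -/

theorem lat_indep_length_le {l : List (ℝ × RootD n)} (h : SwIndep l) : l.length ≤ n := by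
  have := LinearIndependent.fintype_card_le_finrank h
  simpa using this

/-- orthogonality passes to the span -/
theorem lat_dot_span {l : List (ℝ × RootD n)} {z : Vec n} (hz : ∀ p ∈ l, dot z p.2.vec = 0)
    {v : Vec n} (hv : v ∈ Submodule.span ℝ (Set.range fun i : Fin l.length => (l.get i).2.vec)) :
    dot z v = 0 := by
  induction hv using Submodule.span_induction with
  | mem x hx =>
    obtain ⟨i, rfl⟩ := hx
    exact hz _ (List.get_mem l i)
  | zero => exact dot_zero_right z
  | add x y _ _ hx hy => rw [dot_add_right, hx, hy, add_zero]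
  | smul a x _ hx => rw [dot_smul_right, hx, mul_zero]

theorem lat_span_of_top {l : List (ℝ × RootD n)}
    (h : Submodule.span ℝ (Set.range fun i : Fin l.length => (l.get i).2.vec) = ⊤) : SwSpan l := by
  intro z hz
  have : dot z z = 0 := lat_dot_span hz (h ▸ Submodule.mem_top)
  exact dot_self_eq_zero.1 this

/-- every functional is `dot z` -/
theorem lat_functional (f : Vec n →ₗ[ℝ] ℝ) : ∃ z : Vec n, ∀ v, f v = dot z v := by
  refine ⟨fun a => f (Pi.single a 1), fun v => ?_⟩
  rw [LinearMap.pi_apply_eq_sum_univ f v]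
  unfold dot
  refine Finset.sum_congr rfl fun a _ => ?_
  rw [smul_eq_mul, mul_comm]
  congr 2
  funext j
  by_cases h : a = j
  · subst h; simp
  · simp [h, Ne.symm h]

theorem lat_top_of_span {l : List (ℝ × RootD n)} (hs : SwSpan l) :
    Submodule.span ℝ (Set.range fun i : Fin l.length => (l.get i).2.vec) = ⊤ := by
  by_contra hne
  obtain ⟨f, hf0, hf⟩ := Submodule.exists_le_ker_of_lt_top _ (lt_top_iff_ne_top.2 hne)
  obtain ⟨z, hz⟩ := lat_functional f
  have hz0 : z = 0 := by
    apply hs
    intro p hp
    obtain ⟨i, rfl⟩ := List.get_of_mem hp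
    rw [← hz]
    exact hf (Submodule.subset_span ⟨i, rfl⟩)
  apply hf0
  refine LinearMap.ext fun v => ?_
  rw [hz, hz0, dot_zero_left]; rfl

theorem lat_basis_span {l : List (ℝ × RootD n)} (h : SwBasis l) : SwSpan l := by
  apply lat_span_of_top
  apply LinearIndependent.span_eq_top_of_card_eq_finrank' h.1
  simp [h.2]

theorem lat_span_exists_relSum {l : List (ℝ × RootD n)} (hs : SwSpan l) (v : Vec n) :
    ∃ c : List ℝ, c.length = l.length ∧ relSum c l = v := by
  have hv : v ∈ Submodule.span ℝ (Set.range fun i : Fin l.length => (l.get i).2.vec) :=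
    lat_top_of_span hs ▸ Submodule.mem_top
  obtain ⟨f, hf⟩ := (Submodule.mem_span_range_iff_exists_fun ℝ).1 hv
  exact ⟨List.ofFn f, by simp, by rw [lat_relSum_ofFn, hf]⟩

theorem lat_span_length {l : List (ℝ × RootD n)} (hs : SwSpan l) : n ≤ l.length := by
  have h := finrank_range_le_card (R := ℝ) (fun i : Fin l.length => (l.get i).2.vec)
  rw [Set.finrank, lat_top_of_span hs, finrank_top] at h
  simpa using h

theorem lat_span_basis {l : List (ℝ × RootD n)} (hs : SwSpan l) (hl : l.length = n) : SwBasis l := by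
  refine ⟨?_, hl⟩
  apply linearIndependent_of_top_le_span_of_card_eq_finrank (lat_top_of_span hs).ge
  simp [hl]

theorem lat_indep_relSum_inj {l : List (ℝ × RootD n)} (h : SwIndep l) {c c' : List ℝ}
    (hc : c.length = l.length) (hc' : c'.length = l.length) (he : relSum c l = relSum c' l) :
    c = c' := by
  rw [lat_relSum_eq_sum, lat_relSum_eq_sum] at he
  have h0 : ∑ i : Fin l.length, (c.getD i 0 - c'.getD i 0) • (l.get i).2.vec = 0 := by
    simp only [sub_smul, Finset.sum_sub_distrib, he, sub_self]
  have := Fintype.linearIndependent_iff.1 h _ h0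
  apply List.ext_getElem (hc.trans hc'.symm)
  intro i h1 h2
  have h3 := this ⟨i, hc ▸ h1⟩
  simp only at h3
  rw [List.getD_eq_getElem _ _ h1, List.getD_eq_getElem _ _ h2] at h3
  linarith

theorem lat_dual_exists {l : List (ℝ × RootD n)} (h : SwIndep l) {i : ℕ} (hi : i < l.length) :
    ∃ x, IsDual l i x := by
  obtain ⟨g, hg⟩ := LinearMap.exists_extend
    ((Finsupp.lapply (⟨i, hi⟩ : Fin l.length)).comp (LinearIndependent.repr h))
  obtain ⟨z, hz⟩ := lat_functional g
  refine ⟨z, fun j hj => ?_⟩
  rw [← hz]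
  have hm : (l.get ⟨j, hj⟩).2.vec
      ∈ Submodule.span ℝ (Set.range fun i : Fin l.length => (l.get i).2.vec) :=
    Submodule.subset_span ⟨⟨j, hj⟩, rfl⟩
  have h1 := LinearMap.congr_fun hg ⟨_, hm⟩
  simp only [LinearMap.comp_apply, Submodule.subtype_apply] at h1
  have h2 := LinearIndependent.repr_eq_single h ⟨j, hj⟩ ⟨_, hm⟩ rfl
  simp only [List.get_eq_getElem] at h1
  rw [h1]
  simp only [Finsupp.lapply_apply]
  simp only [List.get_eq_getElem] at h2
  rw [h2, Finsupp.single_apply]
  simp [Fin.ext_iff]

theorem lat_dual_unique {l : List (ℝ × RootD n)} (hs : SwSpan l) {i : ℕ} {x y : Vec n}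
    (hx : IsDual l i x) (hy : IsDual l i y) : x = y := by
  have : x - y = 0 := by
    apply hs
    intro p hp
    obtain ⟨j, hj, rfl⟩ := List.getElem_of_mem hp
    rw [dot_sub_left, hx j hj, hy j hj, sub_self]
  exact sub_eq_zero.1 this

/-- `SwSpan`, `SwIndep` only depend on the roots -/
theorem lat_span_congr {l l' : List (ℝ × RootD n)} (h : l.map Prod.snd = l'.map Prod.snd) :
    SwSpan l ↔ SwSpan l' := by
  have key : ∀ (l : List (ℝ × RootD n)) (z : Vec n),
      (∀ p ∈ l, dot z p.2.vec = 0) ↔ ∀ β ∈ l.map Prod.snd, dot z β.vec = 0 := by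
    intro l z
    constructor
    · intro h β hβ
      obtain ⟨p, hp, rfl⟩ := List.mem_map.1 hβ
      exact h p hp
    · intro h p hp
      exact h _ (List.mem_map_of_mem hp)
  unfold SwSpan
  simp only [key, h]

theorem lat_span_mono {l l' : List (ℝ × RootD n)} (h : ∀ p ∈ l, ∃ q ∈ l', q.2.vec = p.2.vec)
    (hs : SwSpan l) : SwSpan l' := by
  intro z hz
  apply hs
  intro p hp
  obtain ⟨q, hq, he⟩ := h p hp
  rw [← he]; exact hz q hq

/-! ## cast lists

WARNING: the source expression `c.map (fun z => (z : ℝ))` with `c : List ℤ` (used in `SwGenQ`, `IsPrimRel`, `AugAt`, `LinkBase`, `SwSpanZ`, …)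
elaborates to `List.map (fun z : ℝ => z) (do let a ← c; pure ↑a)` (the list is coerced, not the entries).  It is the same list;
rewrite with `lat_cast_map` (or use `lat_cast_length`, `lat_cast_getD`, `lat_cast_mem`, `lat_cast_exists`) FIRST. -/

theorem lat_cast_map (c : List ℤ) : c.map (fun z => (z : ℝ)) = List.map (Int.cast : ℤ → ℝ) c := by
  induction c with
  | nil => rfl
  | cons a c ih => simpa using ih

theorem lat_cast_length (c : List ℤ) : (c.map (fun z => (z : ℝ))).length = c.length := by
  rw [lat_cast_map, List.length_map]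

theorem lat_cast_getD (c : List ℤ) (i : ℕ) :
    (c.map (fun z => (z : ℝ))).getD i 0 = ((c.getD i 0 : ℤ) : ℝ) := by
  rw [lat_cast_map]
  by_cases h : i < c.length
  · rw [List.getD_eq_getElem _ _ h, List.getD_eq_getElem _ _ (by simpa using h)]
    simp
  · rw [List.getD_eq_default _ _ (by simpa using h), List.getD_eq_default _ _ (by simpa using h)]
    simp

theorem lat_cast_mem {c : List ℤ} {a : ℝ} : a ∈ c.map (fun z => (z : ℝ)) ↔ ∃ z ∈ c, (z : ℝ) = a := by
  rw [lat_cast_map, List.mem_map]

/-- a list of reals with integral entries is a cast list -/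
theorem lat_cast_exists (m : List ℝ) (h : ∀ a ∈ m, ∃ z : ℤ, a = z) :
    ∃ c : List ℤ, c.map (fun z => (z : ℝ)) = m := by
  induction m with
  | nil => exact ⟨[], rfl⟩
  | cons a m ih =>
    obtain ⟨z, hz⟩ := h a List.mem_cons_self
    obtain ⟨c, hc⟩ := ih (fun b hb => h b (List.mem_cons_of_mem _ hb))
    refine ⟨z :: c, ?_⟩
    rw [lat_cast_map] at hc ⊢
    rw [List.map_cons, hc, hz]

/-- generates the equation lemmas of the definitions of this file here (rule 6: unique names). -/
theorem latBasic_eqns_cite : True := by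
  have := @SwBasis.eq_1
  have := @SwSpan.eq_1
  have := @IsDual.eq_1
  have := @vsupp.eq_1
  have := @IsBridge.eq_1
  have := @IsCyc.eq_1
  have := @SwSpanZ.eq_1
  have := @IsIntV.eq_1
  have := @IsRel.eq_1
  trivial

end Claimed.Agent.R282
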