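import Claimed.Agent.R282.S34.Lat.Basic

/-!
# Row 282, package BP-S34-B, file 2: the DUAL lemma; bridges and cycle edges; permutation roots

LEAF L-LAT-2 = this file (paper-free, ~350 lines; only `Lat/Basic` + `Defs/Dot`).

DUAL.  `l` spans, `x` dual to the edge `i`, `β = l[i].2`.
(a) `lat_dual_closed`: for `j ≠ i`: `0 = x·β_j = ± x_p ± x_q` (`lat_dot_vec`), so `|x_p| = |x_q|`.
(b) `lat_dual_level`: fix `κ > 0`, `B = {a | |x a| = κ}`, `y a = if |x a| = κ then x a else 0`.  By (a) `y·β_j = 0` for `j ≠ i`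
    (both axes in `B`: `y·β_j = x·β_j = 0`; none in `B`: `0`).  So `y - (y·β) • x` is orthogonal to all roots, hence `= 0` (`SwSpan`).
    If some `|x a₀| = κ`: `x a₀ = y a₀ = (y·β) x a₀`, so `y·β = 1`, `y = x`: every `a` has `x a = 0` or `|x a| = κ`.
(c) `x ≠ 0` (as `x·β = 1`); take `κ = |x a₀|` for some `a₀` in the support.  `1 = x·β = ± x_p ± x_q` with `|x_p|, |x_q| ∈ {0, κ}`:
    `1 ∈ {0, ±κ, ±2κ}`: `κ = 1` (exactly one axis in the support, `x_p = sgn_p`) or `κ = 1/2` (`x_p = sgn_p/2`, `x_q = sgn_q/2`).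
(d) `lat_dual_supp_subset`: `B` closed, `β.i ∈ B`: `y = x 1_{Bᶜ}` is orthogonal to ALL roots, so `y = 0`.
PERMUTATION ROOTS (`e_p - e_q`): `x` any dual vector; for `j ≠ i` `x_p = x_q` along the edge `j`; let `p` be the axis of `β` with sign `+`
(`sgnB false = 1`), `q` the other one, `x_p - x_q = 1`; `y = 1_{a | x a = x p}` is dual to `i` with entries `0, 1`.
-/

set_option autoImplicit false

namespace Claimed.Agent.R282

variable {n : ℕ} {l : List (ℝ × RootD n)} {i : ℕ} {x : Vec n}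

/-! ## the DUAL lemma -/

theorem lat_abs_eq_of_dot_zero (x : Vec n) (β : RootD n) (h : dot x β.vec = 0) :
    |x β.i| = |x β.j| := by
  rw [lat_dot_vec] at h
  rcases lat_sgnB_cases β.si with h1 | h1 <;> rcases lat_sgnB_cases β.sj with h2 | h2 <;>
    rw [h1, h2] at h
  · have : x β.i = - x β.j := by linarith
    rw [this, abs_neg]
  · have : x β.i = x β.j := by linarith
    rw [this]
  · have : x β.i = x β.j := by linarith
    rw [this]
  · have : x β.i = - x β.j := by linarith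
    rw [this, abs_neg]

theorem lat_sgn_mul_cases (s : Bool) (t κ : ℝ) (h : t = 0 ∨ |t| = κ) :
    sgnB s * t = 0 ∨ sgnB s * t = κ ∨ sgnB s * t = -κ := by
  rcases h with h | h
  · left; rw [h, mul_zero]
  · right
    rcases lat_sgnB_cases s with hs | hs <;> rw [hs] <;> rcases abs_cases t with ⟨h1, _⟩ | ⟨h1, _⟩
    · left; linarith
    · right; linarith
    · right; linarith
    · left; linarith

/-- (b) of the header for a family -/
theorem lat_fam_level {ι : Type} (b : ι → RootD n)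
    (hs : ∀ z : Vec n, (∀ k, dot z (b k).vec = 0) → z = 0) (i : ι) (x : Vec n)
    (h1 : dot x (b i).vec = 1) (h0 : ∀ k, k ≠ i → dot x (b k).vec = 0) (a₀ : Fin n)
    (ha₀ : x a₀ ≠ 0) (a : Fin n) : x a = 0 ∨ |x a| = |x a₀| := by
  classical
  set κ := |x a₀| with hκ
  set y : Vec n := fun a => if |x a| = κ then x a else 0 with hy
  have hyk : ∀ k, k ≠ i → dot y (b k).vec = 0 := by
    intro k hk
    have h2 := h0 k hk
    have h3 := lat_abs_eq_of_dot_zero x (b k) h2
    rw [lat_dot_vec] at h2 ⊢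
    by_cases hc : |x (b k).i| = κ
    · have hc' : |x (b k).j| = κ := h3 ▸ hc
      simp only [hy, if_pos hc, if_pos hc']
      exact h2
    · have hc' : ¬ |x (b k).j| = κ := h3 ▸ hc
      simp only [hy, if_neg hc, if_neg hc']
      ring
  have hw : y - dot y (b i).vec • x = 0 := by
    apply hs
    intro k
    rw [dot_sub_left, dot_smul_left]
    by_cases hk : k = i
    · subst hk; rw [h1]; ring
    · rw [hyk k hk, h0 k hk]; ring
  have hyx : ∀ a, y a = dot y (b i).vec * x a := by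
    intro a
    have := congrFun hw a
    simp only [Pi.sub_apply, Pi.smul_apply, smul_eq_mul, Pi.zero_apply] at this
    linarith
  have ht : dot y (b i).vec = 1 := by
    have h2 := hyx a₀
    have h3 : y a₀ = x a₀ := by simp only [hy, hκ, if_true]
    rw [h3] at h2
    have h4 : (dot y (b i).vec - 1) * x a₀ = 0 := by linarith
    rcases mul_eq_zero.1 h4 with h5 | h5
    · linarith
    · exact absurd h5 ha₀
  by_cases hc : |x a| = κ
  · right; exact hc
  · left
    have h2 := hyx a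
    rw [ht, one_mul] at h2
    rw [← h2]
    simp only [hy, if_neg hc]

/-- **DUAL** for an arbitrary family of roots (used for sublists: `Lat/Rel`); same proof as in the header -/
theorem lat_fam_dual_abs {ι : Type} (b : ι → RootD n)
    (hs : ∀ z : Vec n, (∀ k, dot z (b k).vec = 0) → z = 0) (i : ι) (x : Vec n)
    (h1 : dot x (b i).vec = 1) (h0 : ∀ k, k ≠ i → dot x (b k).vec = 0) :
    (∀ a, x a = 0 ∨ |x a| = 1) ∨ (∀ a, x a = 0 ∨ |x a| = 1 / 2) := by
  have hx0 : ∃ a₀, x a₀ ≠ 0 := by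
    by_contra hcon
    push Not at hcon
    have : x = 0 := funext hcon
    rw [this, dot_zero_left] at h1
    exact zero_ne_one h1
  obtain ⟨a₀, ha₀⟩ := hx0
  have hlev := lat_fam_level b hs i x h1 h0 a₀ ha₀
  have hκ : 0 < |x a₀| := abs_pos.2 ha₀
  have h2 := h1
  rw [lat_dot_vec] at h2
  have hp := lat_sgn_mul_cases (b i).si _ _ (hlev (b i).i)
  have hq := lat_sgn_mul_cases (b i).sj _ _ (hlev (b i).j)
  have hk : |x a₀| = 1 ∨ |x a₀| = 1 / 2 := by
    rcases hp with hp | hp | hp <;> rcases hq with hq | hq | hq <;> rw [hp, hq] at h2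
    · exfalso; linarith
    · left; linarith
    · exfalso; linarith
    · left; linarith
    · right; linarith
    · exfalso; linarith
    · exfalso; linarith
    · exfalso; linarith
    · exfalso; linarith
  rcases hk with hk | hk
  · left; intro a; rw [← hk]; exact hlev a
  · right; intro a; rw [← hk]; exact hlev a

theorem lat_span_fam (hs : SwSpan l) :
    ∀ z : Vec n, (∀ k : Fin l.length, dot z (l.get k).2.vec = 0) → z = 0 := by
  intro z hz
  apply hs
  intro p hp
  obtain ⟨k, rfl⟩ := List.get_of_mem hp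
  exact hz k

theorem lat_dual_self (hx : IsDual l i x) (hi : i < l.length) : dot x l[i].2.vec = 1 := by
  rw [hx i hi, if_pos rfl]

theorem lat_dual_other (hx : IsDual l i x) {j : ℕ} (hj : j < l.length) (hji : j ≠ i) :
    dot x l[j].2.vec = 0 := by
  rw [hx j hj, if_neg hji]

theorem lat_dual_closed (hx : IsDual l i x) {j : ℕ} (hj : j < l.length) (hji : j ≠ i) :
    |x l[j].2.i| = |x l[j].2.j| :=
  lat_abs_eq_of_dot_zero x _ (lat_dual_other hx hj hji)

theorem lat_dual_ne_zero (hx : IsDual l i x) (hi : i < l.length) : x ≠ 0 := by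
  intro h
  have := lat_dual_self hx hi
  rw [h, dot_zero_left] at this
  exact zero_ne_one this

/-- (b) of the header -/
theorem lat_dual_level (hs : SwSpan l) (hi : i < l.length) (hx : IsDual l i x) (a₀ : Fin n)
    (h0 : x a₀ ≠ 0) (a : Fin n) : x a = 0 ∨ |x a| = |x a₀| :=
  lat_fam_level (fun k : Fin l.length => (l.get k).2) (lat_span_fam hs) ⟨i, hi⟩ x
    (lat_dual_self hx hi) (fun k hk => lat_dual_other hx k.2 (fun h => hk (Fin.ext h))) a₀ h0 a

/-- **DUAL** -/
theorem lat_dual_abs (hs : SwSpan l) (hi : i < l.length) (hx : IsDual l i x) :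
    (∀ a, x a = 0 ∨ |x a| = 1) ∨ (∀ a, x a = 0 ∨ |x a| = 1 / 2) :=
  lat_fam_dual_abs (fun k : Fin l.length => (l.get k).2) (lat_span_fam hs) ⟨i, hi⟩ x
    (lat_dual_self hx hi) (fun k hk => lat_dual_other hx k.2 (fun h => hk (Fin.ext h)))

theorem lat_bridge_or_cyc (h : SwBasis l) (hi : i < l.length) : IsBridge l i ∨ IsCyc l i := by
  obtain ⟨x, hx⟩ := lat_dual_exists h.1 hi
  rcases lat_dual_abs (lat_basis_span h) hi hx with h1 | h1
  · exact Or.inl ⟨x, hx, h1⟩
  · exact Or.inr ⟨x, hx, h1⟩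

theorem lat_not_bridge_cyc (hs : SwSpan l) (hi : i < l.length) (hb : IsBridge l i) : ¬ IsCyc l i := by
  rintro ⟨y, hy, h2⟩
  obtain ⟨x, hx, h1⟩ := hb
  have hxy := lat_dual_unique hs hx hy
  subst hxy
  have hne := lat_dual_ne_zero hx hi
  have : ∃ a, x a ≠ 0 := by
    by_contra hcon
    push Not at hcon
    exact hne (funext hcon)
  obtain ⟨a, ha⟩ := this
  have e1 := (h1 a).resolve_left ha
  have e2 := (h2 a).resolve_left ha
  rw [e1] at e2
  norm_num at e2

/-- the dual vector of a bridge -/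
theorem lat_bridge_dual (hs : SwSpan l) (hb : IsBridge l i) (hx : IsDual l i x) (a : Fin n) :
    x a = 0 ∨ |x a| = 1 := by
  obtain ⟨y, hy, h1⟩ := hb
  rw [lat_dual_unique hs hx hy]
  exact h1 a

/-- the dual vector of a cycle edge -/
theorem lat_cyc_dual (hs : SwSpan l) (hc : IsCyc l i) (hx : IsDual l i x) (a : Fin n) :
    x a = 0 ∨ |x a| = 1 / 2 := by
  obtain ⟨y, hy, h1⟩ := hc
  rw [lat_dual_unique hs hx hy]
  exact h1 a

theorem lat_sgn_cancel (s : Bool) (t u : ℝ) (h : sgnB s * t = u) : t = sgnB s * u := by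
  rw [← h, ← mul_assoc, lat_sgnB_sq, one_mul]

/-- exactly one axis of a bridge lies in the support of its dual vector -/
theorem lat_bridge_ends (hi : i < l.length) (hx : IsDual l i x) (h1 : ∀ a, x a = 0 ∨ |x a| = 1) :
    (x l[i].2.i = sgnB l[i].2.si ∧ x l[i].2.j = 0) ∨ (x l[i].2.i = 0 ∧ x l[i].2.j = sgnB l[i].2.sj) := by
  have h2 := lat_dual_self hx hi
  rw [lat_dot_vec] at h2
  have hp := lat_sgn_mul_cases l[i].2.si _ _ (h1 l[i].2.i)
  have hq := lat_sgn_mul_cases l[i].2.sj _ _ (h1 l[i].2.j)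
  rcases hp with hp | hp | hp <;> rcases hq with hq | hq | hq <;>
    first
    | (exfalso; rw [hp, hq] at h2; norm_num at h2; done)
    | (left
       have e1 := lat_sgn_cancel _ _ _ hp
       have e2 := lat_sgn_cancel _ _ _ hq
       rw [mul_one] at e1; rw [mul_zero] at e2
       exact ⟨e1, e2⟩)
    | (right
       have e1 := lat_sgn_cancel _ _ _ hp
       have e2 := lat_sgn_cancel _ _ _ hq
       rw [mul_zero] at e1; rw [mul_one] at e2
       exact ⟨e1, e2⟩)

theorem lat_cyc_ends (hi : i < l.length) (hx : IsDual l i x) (h2 : ∀ a, x a = 0 ∨ |x a| = 1 / 2) :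
    x l[i].2.i = sgnB l[i].2.si / 2 ∧ x l[i].2.j = sgnB l[i].2.sj / 2 := by
  have h3 := lat_dual_self hx hi
  rw [lat_dot_vec] at h3
  have hp := lat_sgn_mul_cases l[i].2.si _ _ (h2 l[i].2.i)
  have hq := lat_sgn_mul_cases l[i].2.sj _ _ (h2 l[i].2.j)
  rcases hp with hp | hp | hp <;> rcases hq with hq | hq | hq <;>
    first
    | (exfalso; rw [hp, hq] at h3; norm_num at h3; done)
    | (have e1 := lat_sgn_cancel _ _ _ hp
       have e2 := lat_sgn_cancel _ _ _ hq
       exact ⟨by rw [e1]; ring, by rw [e2]; ring⟩)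


theorem lat_sgnB_ne_zero (b : Bool) : sgnB b ≠ 0 := by
  cases b <;> simp [sgnB]

/-- the support of the dual vector is closed under the other edges -/
theorem lat_dual_supp_closed (hx : IsDual l i x) {j : ℕ} (hj : j < l.length) (hji : j ≠ i) :
    l[j].2.i ∈ vsupp x ↔ l[j].2.j ∈ vsupp x := by
  rw [lat_mem_vsupp, lat_mem_vsupp, ← abs_ne_zero, ← abs_ne_zero (a := x l[j].2.j),
    lat_dual_closed hx hj hji]

/-- the support of the dual vector of a cycle edge is closed under ALL edges -/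
theorem lat_cyc_closed (hi : i < l.length) (hx : IsDual l i x) (h2 : ∀ a, x a = 0 ∨ |x a| = 1 / 2) :
    SwClosed l (vsupp x) := by
  intro p hp
  obtain ⟨j, hj, rfl⟩ := List.getElem_of_mem hp
  by_cases hji : j = i
  · subst hji
    obtain ⟨e1, e2⟩ := lat_cyc_ends hj hx h2
    rw [lat_mem_vsupp, lat_mem_vsupp, e1, e2]
    have := lat_sgnB_ne_zero l[j].2.si
    have := lat_sgnB_ne_zero l[j].2.sj
    constructor <;> intro _ <;> positivity
  · exact lat_dual_supp_closed hx hj hji

/-- (d) of the header -/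
theorem lat_dual_supp_subset (hs : SwSpan l) (hi : i < l.length) (hx : IsDual l i x)
    {B : Finset (Fin n)} (hB : SwClosed l B) (hiB : l[i].2.i ∈ B) : vsupp x ⊆ B := by
  classical
  set y : Vec n := fun a => if a ∈ B then 0 else x a with hy
  have hy0 : y = 0 := by
    apply hs
    intro p hp
    have hcl := hB p hp
    obtain ⟨j, hj, rfl⟩ := List.getElem_of_mem hp
    rw [lat_dot_vec]
    by_cases hc : l[j].2.i ∈ B
    · simp only [hy, if_pos hc, if_pos (hcl.1 hc)]; ring
    · have hc' : l[j].2.j ∉ B := fun h => hc (hcl.2 h)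
      simp only [hy, if_neg hc, if_neg hc']
      rw [← lat_dot_vec]
      apply lat_dual_other hx hj
      rintro rfl
      exact hc hiB
  intro a ha
  rw [lat_mem_vsupp] at ha
  by_contra hc
  apply ha
  have := congrFun hy0 a
  simpa only [hy, if_neg hc, Pi.zero_apply] using this

/-- the terms `x_a (β_i)_a` -/
theorem lat_term_off (hi : i < l.length) (a : Fin n) (h1 : a ≠ l[i].2.i) (h2 : a ≠ l[i].2.j) :
    x a * l[i].2.vec a = 0 := by
  rw [lat_vec_off _ a h1 h2, mul_zero]

theorem lat_term_cyc (hi : i < l.length) (hx : IsDual l i x) (h2 : ∀ a, x a = 0 ∨ |x a| = 1 / 2) :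
    x l[i].2.i * l[i].2.vec l[i].2.i = 1 / 2 ∧ x l[i].2.j * l[i].2.vec l[i].2.j = 1 / 2 := by
  obtain ⟨e1, e2⟩ := lat_cyc_ends hi hx h2
  rw [e1, e2, lat_vec_i, lat_vec_j]
  constructor
  · rw [div_mul_eq_mul_div, lat_sgnB_sq]
  · rw [div_mul_eq_mul_div, lat_sgnB_sq]

theorem lat_term_bridge (hi : i < l.length) (hx : IsDual l i x) (h1 : ∀ a, x a = 0 ∨ |x a| = 1) :
    (x l[i].2.i * l[i].2.vec l[i].2.i = 1 ∧ x l[i].2.j * l[i].2.vec l[i].2.j = 0) ∨
      (x l[i].2.i * l[i].2.vec l[i].2.i = 0 ∧ x l[i].2.j * l[i].2.vec l[i].2.j = 1) := by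
  rcases lat_bridge_ends hi hx h1 with ⟨e1, e2⟩ | ⟨e1, e2⟩
  · left; rw [e1, e2, lat_vec_i, lat_sgnB_sq, zero_mul]; exact ⟨rfl, rfl⟩
  · right; rw [e1, e2, lat_vec_j, lat_sgnB_sq, zero_mul]; exact ⟨rfl, rfl⟩

theorem lat_term_mem (hs : SwSpan l) (hi : i < l.length) (hx : IsDual l i x) (a : Fin n) :
    x a * l[i].2.vec a = 0 ∨ x a * l[i].2.vec a = 1 / 2 ∨ x a * l[i].2.vec a = 1 := by
  by_cases h1 : a = l[i].2.i
  · rw [h1]
    rcases lat_dual_abs hs hi hx with h | h
    · rcases lat_term_bridge hi hx h with ⟨e1, _⟩ | ⟨e1, _⟩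
      · right; right; exact e1
      · left; exact e1
    · right; left; exact (lat_term_cyc hi hx h).1
  · by_cases h2 : a = l[i].2.j
    · rw [h2]
      rcases lat_dual_abs hs hi hx with h | h
      · rcases lat_term_bridge hi hx h with ⟨_, e1⟩ | ⟨_, e1⟩
        · left; exact e1
        · right; right; exact e1
      · right; left; exact (lat_term_cyc hi hx h).2
    · left; exact lat_term_off hi a h1 h2

/-- pairing of a vector with entries `0, ±κ` (`κ = 1` or `1/2`) with a root -/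
theorem lat_abs_dot_root (x : Vec n)
    (h : (∀ a, x a = 0 ∨ |x a| = 1) ∨ (∀ a, x a = 0 ∨ |x a| = 1 / 2)) (γ : RootD n) :
    ∃ z : ℤ, 2 * dot x γ.vec = z ∧ (z = 0 ∨ |z| = 1 ∨ |z| = 2 ∨ |z| = 4) := by
  rw [lat_dot_vec]
  rcases h with h | h
  · have hp := lat_sgn_mul_cases γ.si _ _ (h γ.i)
    have hq := lat_sgn_mul_cases γ.sj _ _ (h γ.j)
    rcases hp with hp | hp | hp <;> rcases hq with hq | hq | hq <;> rw [hp, hq]
    · exact ⟨0, by norm_num, by norm_num⟩
    · exact ⟨2, by norm_num, by norm_num⟩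
    · exact ⟨-2, by norm_num, by norm_num⟩
    · exact ⟨2, by norm_num, by norm_num⟩
    · exact ⟨4, by norm_num, by norm_num⟩
    · exact ⟨0, by norm_num, by norm_num⟩
    · exact ⟨-2, by norm_num, by norm_num⟩
    · exact ⟨0, by norm_num, by norm_num⟩
    · exact ⟨-4, by norm_num, by norm_num⟩
  · have hp := lat_sgn_mul_cases γ.si _ _ (h γ.i)
    have hq := lat_sgn_mul_cases γ.sj _ _ (h γ.j)
    rcases hp with hp | hp | hp <;> rcases hq with hq | hq | hq <;> rw [hp, hq]
    · exact ⟨0, by norm_num, by norm_num⟩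
    · exact ⟨1, by norm_num, by norm_num⟩
    · exact ⟨-1, by norm_num, by norm_num⟩
    · exact ⟨1, by norm_num, by norm_num⟩
    · exact ⟨2, by norm_num, by norm_num⟩
    · exact ⟨0, by norm_num, by norm_num⟩
    · exact ⟨-1, by norm_num, by norm_num⟩
    · exact ⟨0, by norm_num, by norm_num⟩
    · exact ⟨-2, by norm_num, by norm_num⟩

/-- a dual vector pairs with ANY root to `0, ±1/2, ±1, ±2` -/
theorem lat_dual_dot_root (hs : SwSpan l) (hi : i < l.length) (hx : IsDual l i x) (γ : RootD n) :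
    ∃ z : ℤ, 2 * dot x γ.vec = z ∧ (z = 0 ∨ |z| = 1 ∨ |z| = 2 ∨ |z| = 4) :=
  lat_abs_dot_root x (lat_dual_abs hs hi hx) γ

/-! ## coefficients of integral vectors -/

theorem lat_sum_int {ι : Type*} (s : Finset ι) (f : ι → ℝ) (h : ∀ a ∈ s, ∃ z : ℤ, f a = z) :
    ∃ z : ℤ, ∑ a ∈ s, f a = z := by
  classical
  induction s using Finset.induction_on with
  | empty => exact ⟨0, by simp⟩
  | insert a s ha ih =>
    obtain ⟨z1, h1⟩ := h a (Finset.mem_insert_self a s)
    obtain ⟨z2, h2⟩ := ih (fun b hb => h b (Finset.mem_insert_of_mem hb))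
    exact ⟨z1 + z2, by rw [Finset.sum_insert ha, h1, h2]; push_cast; ring⟩

theorem lat_coeff_bridge (h1 : ∀ a, x a = 0 ∨ |x a| = 1) {v : Vec n} (hv : IsIntV v) :
    ∃ z : ℤ, dot x v = z := by
  unfold dot
  apply lat_sum_int
  intro a _
  obtain ⟨z, hz⟩ := hv a
  rcases h1 a with h | h
  · exact ⟨0, by rw [h]; simp⟩
  · rcases abs_cases (x a) with ⟨h2, _⟩ | ⟨h2, _⟩
    · exact ⟨z, by rw [hz, show x a = 1 by linarith]; simp⟩
    · exact ⟨-z, by rw [hz, show x a = -1 by linarith]; simp⟩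

/-- `x·v ≡ (∑_{supp x} v_a)/2 mod 1` -/
theorem lat_coeff_cyc (h2 : ∀ a, x a = 0 ∨ |x a| = 1 / 2) {v : Vec n} (hv : IsIntV v) :
    ∃ z : ℤ, dot x v = z + (∑ a ∈ vsupp x, v a) / 2 := by
  classical
  have key : ∃ z : ℤ, ∑ a, (x a * v a - if x a ≠ 0 then v a / 2 else 0) = z := by
    apply lat_sum_int
    intro a _
    obtain ⟨z, hz⟩ := hv a
    rcases h2 a with h | h
    · exact ⟨0, by rw [h]; simp⟩
    · have hne : x a ≠ 0 := by
        intro h0; rw [h0] at h; norm_num at h
      rw [if_pos hne]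
      rcases abs_cases (x a) with ⟨h3, _⟩ | ⟨h3, _⟩
      · exact ⟨0, by rw [show x a = 1 / 2 by linarith]; push_cast; ring⟩
      · exact ⟨-z, by rw [hz, show x a = -(1 / 2) by linarith]; push_cast; ring⟩
  obtain ⟨z, hz⟩ := key
  refine ⟨z, ?_⟩
  rw [Finset.sum_sub_distrib] at hz
  have h3 : ∑ a, (if x a ≠ 0 then v a / 2 else 0) = (∑ a ∈ vsupp x, v a) / 2 := by
    rw [Finset.sum_div, vsupp, Finset.sum_filter]
  rw [h3] at hz
  unfold dot
  linarith

/-- coefficients of an integral vector in a basis of roots are half-integers (DUAL + the two lemmas above) -/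
theorem lat_coeff_half (h : SwBasis l) (m : List ℝ) (hm : m.length = l.length)
    (hv : IsIntV (relSum m l)) : ∀ a ∈ m, HalfInt a := by
  intro a ha
  obtain ⟨k, hk, rfl⟩ := List.getElem_of_mem ha
  have hk' : k < l.length := hm ▸ hk
  obtain ⟨x, hx⟩ := lat_dual_exists h.1 hk'
  have h1 := lat_dual_relSum hx hk' m
  rw [List.getD_eq_getElem _ _ hk] at h1
  rw [← h1]
  rcases lat_dual_abs (lat_basis_span h) hk' hx with h2 | h2
  · obtain ⟨z, hz⟩ := lat_coeff_bridge h2 hv
    exact ⟨2 * z, by rw [hz]; push_cast; ring⟩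
  · obtain ⟨z, hz⟩ := lat_coeff_cyc h2 hv
    obtain ⟨z', hz'⟩ := lat_sum_int (vsupp x) (relSum m l) (fun a _ => hv a)
    exact ⟨2 * z + z', by rw [hz, hz']; push_cast; ring⟩

/-! ## permutation roots (for contract C1) -/

theorem lat_perm_dot (x : Vec n) (β : RootD n) (hβ : β.IsPerm) :
    dot x β.vec = sgnB β.si * (x β.i - x β.j) := by
  rw [lat_dot_vec]
  have : sgnB β.sj = - sgnB β.si := by
    unfold RootD.IsPerm at hβ
    cases h1 : β.si <;> cases h2 : β.sj <;> simp_all [sgnB]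
  rw [this]; ring

theorem lat_perm_dual (hp : ∀ p ∈ l, p.2.IsPerm) (hi : i < l.length) (hx : IsDual l i x) :
    ∃ y, IsDual l i y ∧ ∀ a, y a = 0 ∨ y a = 1 := by
  classical
  have hβ := hp _ (List.getElem_mem hi)
  have h1 := lat_dual_self hx hi
  rw [lat_perm_dot x _ hβ] at h1
  -- the level of the positive axis
  obtain ⟨c, hc⟩ : ∃ c : ℝ, sgnB l[i].2.si *
      ((if x l[i].2.i = c then (1:ℝ) else 0) - (if x l[i].2.j = c then (1:ℝ) else 0)) = 1 := by
    rcases lat_sgnB_cases l[i].2.si with hs | hs <;> rw [hs] at h1 ⊢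
    · refine ⟨x l[i].2.i, ?_⟩
      rw [if_pos rfl, if_neg (by intro h; rw [h] at h1; norm_num at h1)]; norm_num
    · refine ⟨x l[i].2.j, ?_⟩
      rw [if_pos rfl, if_neg (by intro h; rw [h] at h1; norm_num at h1)]; norm_num
  refine ⟨fun a => if x a = c then 1 else 0, ?_, ?_⟩
  · intro j hj
    rw [lat_perm_dot _ _ (hp _ (List.getElem_mem hj))]
    by_cases hji : j = i
    · subst hji; rw [if_pos rfl]; exact hc
    · rw [if_neg hji]
      have h2 := lat_dual_other hx hj hji
      rw [lat_perm_dot x _ (hp _ (List.getElem_mem hj))] at h2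
      have h3 : x l[j].2.i = x l[j].2.j := by
        rcases mul_eq_zero.1 h2 with h | h
        · exact absurd h (lat_sgnB_ne_zero _)
        · linarith
      simp only [h3, sub_self, mul_zero]
  · intro a
    by_cases h : x a = c
    · right; simp only [if_pos h]
    · left; simp only [if_neg h]

/-- independent permutation roots are part of an integral basis -/
theorem lat_perm_int (hp : ∀ p ∈ l, p.2.IsPerm) (hI : SwIndep l) (m : List ℝ)
    (hm : m.length = l.length) (hv : IsIntV (relSum m l)) : ∀ a ∈ m, ∃ z : ℤ, a = z := by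
  intro a ha
  obtain ⟨k, hk, rfl⟩ := List.getElem_of_mem ha
  have hk' : k < l.length := hm ▸ hk
  obtain ⟨x, hx⟩ := lat_dual_exists hI hk'
  obtain ⟨y, hy, h01⟩ := lat_perm_dual hp hk' hx
  have h1 := lat_dual_relSum hy hk' m
  rw [List.getD_eq_getElem _ _ hk] at h1
  rw [← h1]
  apply lat_coeff_bridge _ hv
  intro a
  rcases h01 a with h | h
  · left; exact h
  · right; rw [h]; norm_num

end Claimed.Agent.R282
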