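import Claimed.Agent.R282.S34.Lat.Rel

/-!
# Row 282, package BP-S34-B, file 8: the potential of a relation

LEAF L-LAT-8 = this file (~300 lines; paper-free; uses `Lat/Rel` (`lat_rel_line`), `Lat/SpanZ` (`lat_vel_span`), `sc_telescope`).

PLAN.
* matrices: `R β = 1 - Matrix.vecMulVec β.vec β.vec`, `R β *ᵥ x = refl β x`, `(R β)ᵀ = R β`, `R β * R β = 1` (`β·β = 2`),
  `det (R β) = 1 - β·β = -1` (`Matrix.det_one_add_replicateCol_mul_replicateRow` / `Matrix.det_one_sub_…`; or: `det² = 1` is NOT enough, use the rank one formula).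
  `M [] = 1`, `M (β :: l) = M l * R β`: `M l *ᵥ x = reflList l x`, `M l * (M l)ᵀ = 1`, `det (M l) = (-1)^l.length`.
* `lat_reflList_fix`: `g = M l`, `det (g - 1) = det (g * (1 - gᵀ)) = det g * det (1 - g) = det g * (-1)^n * det (g - 1) = - det (g - 1)`
  (`Matrix.det_transpose`, `Matrix.det_neg`, `Fintype.card_fin`), so `det (g - 1) = 0`; `Matrix.exists_mulVec_eq_zero_iff`.
* `lat_potential`: `L₀ ≠ 0` fixed; `d₀ = (L₀·γ_i)_i` is a relation (`sc_telescope`), nonzero since the `γ_i` span (`lat_vel_span`); `d = s d₀` (`lat_rel_line`); `L = s L₀`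
  (`reflList` is linear: induction; or prove `lat_reflList_smul`).
ALTERNATIVE without determinants: `∑ g_i d_i = -(1/2) |∑ d_i β_i|² = 0` for `g = gapLinList d l`, and the image of `L ↦ (L·γ_i)_i` is the orthogonal complement of the
relations among the `γ_i`, which is the line through `g`.
-/

set_option autoImplicit false

namespace Claimed.Agent.R282

variable {n : ℕ} {l : List (ℝ × RootD n)}

theorem latPot_refl_smul (β : RootD n) (s : ℝ) (x : Vec n) : refl β (s • x) = s • refl β x := by
  unfold refl
  rw [dot_smul_left, smul_sub, smul_smul]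

theorem lat_reflList_smul (l : List (RootD n)) (s : ℝ) (x : Vec n) :
    reflList l (s • x) = s • reflList l x := by
  induction l generalizing x with
  | nil => rfl
  | cons β l ih =>
    show reflList l (refl β (s • x)) = s • reflList l (refl β x)
    rw [latPot_refl_smul, ih]

theorem latPot_dot_self (β : RootD n) : dot β.vec β.vec = 2 := by
  rw [lat_dot_vec, lat_vec_i, lat_vec_j, lat_sgnB_sq, lat_sgnB_sq]
  norm_num

/-- the matrix of a reflection -/
noncomputable def latPot_R (β : RootD n) : Matrix (Fin n) (Fin n) ℝ :=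
  1 - Matrix.replicateCol Unit β.vec * Matrix.replicateRow Unit β.vec

theorem latPot_R_apply (β : RootD n) (a b : Fin n) :
    latPot_R β a b = (if a = b then 1 else 0) - β.vec a * β.vec b := by
  unfold latPot_R
  simp [Matrix.mul_apply, Matrix.one_apply]

theorem latPot_R_mulVec (β : RootD n) (x : Vec n) : (latPot_R β).mulVec x = refl β x := by
  funext a
  unfold Matrix.mulVec dotProduct refl dot
  simp only [latPot_R_apply, sub_mul, Finset.sum_sub_distrib, ite_mul, one_mul, zero_mul,
    Finset.sum_ite_eq, Finset.mem_univ, if_true, Pi.sub_apply, Pi.smul_apply, smul_eq_mul]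
  congr 1
  rw [Finset.sum_mul]
  apply Finset.sum_congr rfl
  intro b _
  ring

theorem latPot_R_transpose (β : RootD n) : (latPot_R β).transpose = latPot_R β := by
  ext a b
  rw [Matrix.transpose_apply, latPot_R_apply, latPot_R_apply]
  congr 1
  · by_cases h : a = b
    · rw [if_pos h, if_pos h.symm]
    · rw [if_neg h, if_neg (Ne.symm h)]
  · ring

theorem latPot_refl_refl (β : RootD n) (x : Vec n) : refl β (refl β x) = x := by
  unfold refl
  rw [dot_sub_left, dot_smul_left, latPot_dot_self]
  funext a
  simp only [Pi.sub_apply, Pi.smul_apply, smul_eq_mul]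
  ring

theorem latPot_R_sq (β : RootD n) : latPot_R β * latPot_R β = 1 := by
  apply Matrix.toLin'.injective
  apply LinearMap.ext
  intro x
  rw [Matrix.toLin'_mul, LinearMap.comp_apply, Matrix.toLin'_apply, Matrix.toLin'_apply, latPot_R_mulVec,
    latPot_R_mulVec, latPot_refl_refl, Matrix.toLin'_one, LinearMap.id_apply]

theorem latPot_R_det (β : RootD n) : (latPot_R β).det = -1 := by
  unfold latPot_R
  rw [sub_eq_add_neg, ← Matrix.neg_mul]
  have e : -Matrix.replicateCol Unit β.vec = Matrix.replicateCol Unit (-β.vec) := by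
    ext a b
    simp
  rw [e, Matrix.det_one_add_replicateCol_mul_replicateRow]
  have h := latPot_dot_self β
  unfold dot at h
  simp only [dotProduct, Pi.neg_apply, mul_neg, Finset.sum_neg_distrib]
  rw [h]
  norm_num

/-- the matrix of a product of reflections -/
noncomputable def latPot_M : List (RootD n) → Matrix (Fin n) (Fin n) ℝ
  | [] => 1
  | β :: l => latPot_M l * latPot_R β

theorem latPot_M_mulVec (l : List (RootD n)) (x : Vec n) : (latPot_M l).mulVec x = reflList l x := by
  induction l generalizing x with
  | nil => exact Matrix.one_mulVec x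
  | cons β l ih =>
    show (latPot_M l * latPot_R β).mulVec x = reflList l (refl β x)
    rw [← Matrix.mulVec_mulVec, latPot_R_mulVec, ih]

theorem latPot_M_orth (l : List (RootD n)) : latPot_M l * (latPot_M l).transpose = 1 := by
  induction l with
  | nil => simp [latPot_M]
  | cons β l ih =>
    show (latPot_M l * latPot_R β) * (latPot_M l * latPot_R β).transpose = 1
    rw [Matrix.transpose_mul, latPot_R_transpose, Matrix.mul_assoc, ← Matrix.mul_assoc (latPot_R β),
      latPot_R_sq, Matrix.one_mul, ih]

theorem latPot_M_det (l : List (RootD n)) : (latPot_M l).det = (-1) ^ l.length := by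
  induction l with
  | nil => simp [latPot_M]
  | cons β l ih =>
    show (latPot_M l * latPot_R β).det = _
    rw [Matrix.det_mul, ih, latPot_R_det, List.length_cons, pow_succ]

/-- a product of reflections whose number has the parity of `n + 1` fixes a nonzero vector -/
theorem lat_reflList_fix (l : List (RootD n)) (hl : Odd (l.length + n)) :
    ∃ L : Vec n, L ≠ 0 ∧ reflList l L = L := by
  obtain ⟨g, hg⟩ : ∃ g, g = latPot_M l := ⟨_, rfl⟩
  have horth : g * g.transpose = 1 := by rw [hg]; exact latPot_M_orth l
  have hdet : g.det = (-1) ^ l.length := by rw [hg]; exact latPot_M_det l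
  have e1 : g - 1 = g * (1 - g).transpose := by
    rw [Matrix.transpose_sub, Matrix.transpose_one, Matrix.mul_sub, Matrix.mul_one, horth]
  have e2 : (1 - g).det = (-1) ^ n * (g - 1).det := by
    rw [← neg_sub g 1, Matrix.det_neg, Fintype.card_fin]
  have h0 : (g - 1).det = 0 := by
    have h1 : (g - 1).det = g.det * (1 - g).det := by
      conv_lhs => rw [e1]
      rw [Matrix.det_mul, Matrix.det_transpose]
    rw [e2, hdet, ← mul_assoc, ← pow_add, hl.neg_one_pow] at h1
    linarith
  obtain ⟨v, hv0, hv⟩ := Matrix.exists_mulVec_eq_zero_iff.2 h0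
  refine ⟨v, hv0, ?_⟩
  rw [Matrix.sub_mulVec, Matrix.one_mulVec, hg, latPot_M_mulVec, sub_eq_zero] at hv
  exact hv

/-- fixed vectors give relations -/
theorem lat_rel_of_fix (l : List (ℝ × RootD n)) {L : Vec n}
    (hL : reflList (l.map Prod.snd) L = L) :
    IsRel ((velRoots (l.map Prod.snd)).map (fun γ => dot L γ.vec)) l := by
  refine ⟨?_, ?_⟩
  · rw [List.length_map, sc_velRoots_length, List.length_map]
  · rw [sc_telescope, hL, sub_self]

/-- **potential** of a relation among `n + 1` roots of rank `n` -/
theorem lat_potential (hs : SwSpan l) (hl : l.length = n + 1) {d : List ℝ} (hd : IsRel d l) :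
    ∃ L : Vec n, reflList (l.map Prod.snd) L = L ∧
      d = (velRoots (l.map Prod.snd)).map (fun γ => dot L γ.vec) := by
  obtain ⟨L0, hL0, hfix⟩ := lat_reflList_fix (l.map Prod.snd) (by
    rw [List.length_map, hl]
    exact ⟨n, by ring⟩)
  have hd0 := lat_rel_of_fix l hfix
  have hne : ∃ a ∈ (velRoots (l.map Prod.snd)).map (fun γ => dot L0 γ.vec), a ≠ 0 := by
    by_contra hcon
    push Not at hcon
    apply hL0
    apply (lat_vel_span l).2 hs L0
    intro p hp
    unfold velSw at hp
    obtain ⟨γ, hγ, rfl⟩ := List.mem_map.1 hp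
    exact hcon _ (List.mem_map.2 ⟨γ, hγ, rfl⟩)
  obtain ⟨s, hs'⟩ := lat_rel_line hs hl hd0 hne hd
  refine ⟨s • L0, ?_, ?_⟩
  · rw [lat_reflList_smul, hfix]
  · rw [hs', List.map_map]
    apply List.map_congr_left
    intro γ _
    simp only [Function.comp, dot_smul_left]

/-- generates the equation lemmas of the definitions of this file here (rule 6: unique names). -/
theorem latPot_eqns_cite : True := by
  have := @latPot_R.eq_1
  have := @latPot_M.eq_1
  have := @latPot_M.eq_2
  trivial

end Claimed.Agent.R282
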