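import Claimed.Agent.R282.S34.Lat.Dual

/-!
# Row 282, package BP-S34-B, file 4: `ℤ`-spans of switch roots, `SwGenQ`

LEAF L-LAT-4 = this file (~300 lines; paper-free; uses `Lat/Basic`, `sc_relSum_*`, `sc_inQD_*`, `sc_vel_span_int`, `sc_reflRoot_vec`).

PLAN.  Prove `lat_spanZ_iff` FIRST, everything else is then formal (`AddSubgroup.closure_induction`, `AddSubgroup.closure_mono`, `closure_le`).
* `→`: induction on `l` generalising `c` (`sc_relSum_cons`): `(z:ℝ) • β.vec = z • β.vec` (`zsmul_eq_smul_cast` / `Int.cast_smul_eq_zsmul`) is in the closure.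
* `←`: `closure_induction`: generator `p ∈ l`: index `k` with `l[k] = p`, `c = (List.range l.length).map (fun j => if j = k then 1 else 0)`
  (or induction on `l`: `1 :: replicate 0`, `0 :: c`); zero: `List.replicate l.length 0`; sum: `List.zipWith (· + ·)`, `sc_relSum_add`; neg: `map Neg.neg`, `sc_relSum_smul (-1)`.
* `lat_spanZ_even`: the set of `v` with `∑_B v ∈ 2ℤ` is an additive subgroup containing the roots (`lat_vec_sum_closed`).
* `lat_genQ_span`: `z ⊥` all roots `⟹ z ⊥ relSum c l` (`lat_dot_relSum`) `⟹ z ⊥ Q(D_n) ∋ 2 e_a` (`Pi.single a 2`) `⟹ z a = 0`.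
* `lat_spanZ_refl`: `s_β γ = γ - (γ·β) β` (`sc_reflRoot_vec`, `refl`), `γ·β ∈ ℤ` (`lat_dot_root_int`: `lat_dot_vec`, values of `sgnB`).
* `lat_genQ_insert_refl`: by `lat_genQ_mono`: `γ = s_{β₀} γ + (γ·β₀) β₀`; `(p.2.map (WB.ofRoot β₀)) = reflRoot β₀ p.2` by `rfl`.
* velocity list: `lat_spanZ_iff` + `sc_vel_span_int (l.map Prod.snd)` (rewrite the two generating sets).
-/

set_option autoImplicit false

namespace Claimed.Agent.R282

variable {n : ℕ} {l l' : List (ℝ × RootD n)} {u v : Vec n}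

/-- the velocity roots as a list of switches (all times `0`) -/
def velSw (l : List (ℝ × RootD n)) : List (ℝ × RootD n) :=
  (velRoots (l.map Prod.snd)).map (fun γ => ((0 : ℝ), γ))

/-- function form of `SwSpanZ` -/
theorem lat_spanZ_iff_fun (l : List (ℝ × RootD n)) (v : Vec n) :
    SwSpanZ l v ↔ ∃ f : Fin l.length → ℤ, ∑ i, (f i : ℝ) • (l.get i).2.vec = v := by
  constructor
  · rintro ⟨c, hc, rfl⟩
    refine ⟨fun i => c.getD i 0, ?_⟩
    rw [lat_relSum_eq_sum]
    refine Finset.sum_congr rfl fun i _ => ?_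
    rw [lat_cast_getD]
  · rintro ⟨f, rfl⟩
    refine ⟨List.ofFn f, by simp, ?_⟩
    rw [lat_cast_map, List.map_ofFn, lat_relSum_ofFn]
    rfl

theorem lat_spanZ_iff (l : List (ℝ × RootD n)) (v : Vec n) :
    SwSpanZ l v ↔ v ∈ AddSubgroup.closure {u : Vec n | ∃ p ∈ l, u = p.2.vec} := by
  classical
  rw [lat_spanZ_iff_fun]
  constructor
  · rintro ⟨f, rfl⟩
    apply AddSubgroup.sum_mem
    intro i _
    rw [Int.cast_smul_eq_zsmul]
    apply AddSubgroup.zsmul_mem
    exact AddSubgroup.subset_closure ⟨l.get i, List.get_mem l i, rfl⟩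
  · intro hv
    induction hv using AddSubgroup.closure_induction with
    | mem x hx =>
      obtain ⟨p, hp, rfl⟩ := hx
      obtain ⟨k, rfl⟩ := List.get_of_mem hp
      refine ⟨fun i => if i = k then 1 else 0, ?_⟩
      rw [Finset.sum_eq_single k]
      · simp
      · intro j _ hj; simp [hj]
      · intro h; exact absurd (Finset.mem_univ _) h
    | zero => exact ⟨0, by simp⟩
    | add x y _ _ hx hy =>
      obtain ⟨f, rfl⟩ := hx
      obtain ⟨g, rfl⟩ := hy
      refine ⟨f + g, ?_⟩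
      simp only [Pi.add_apply, Int.cast_add, add_smul, Finset.sum_add_distrib]
    | neg x _ hx =>
      obtain ⟨f, rfl⟩ := hx
      refine ⟨-f, ?_⟩
      simp only [Pi.neg_apply, Int.cast_neg, neg_smul, Finset.sum_neg_distrib]

theorem lat_spanZ_zero (l : List (ℝ × RootD n)) : SwSpanZ l 0 := by
  rw [lat_spanZ_iff]; exact AddSubgroup.zero_mem _

theorem lat_spanZ_add (hu : SwSpanZ l u) (hv : SwSpanZ l v) : SwSpanZ l (u + v) := by
  rw [lat_spanZ_iff] at *; exact AddSubgroup.add_mem _ hu hv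

theorem lat_spanZ_neg (hv : SwSpanZ l v) : SwSpanZ l (-v) := by
  rw [lat_spanZ_iff] at *; exact AddSubgroup.neg_mem _ hv

theorem lat_spanZ_sub (hu : SwSpanZ l u) (hv : SwSpanZ l v) : SwSpanZ l (u - v) := by
  rw [lat_spanZ_iff] at *; exact AddSubgroup.sub_mem _ hu hv

theorem lat_spanZ_zsmul (z : ℤ) (hv : SwSpanZ l v) : SwSpanZ l ((z : ℝ) • v) := by
  rw [lat_spanZ_iff] at *
  rw [Int.cast_smul_eq_zsmul]
  exact AddSubgroup.zsmul_mem _ hv z

theorem lat_spanZ_root {p : ℝ × RootD n} (hp : p ∈ l) : SwSpanZ l p.2.vec := by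
  rw [lat_spanZ_iff]; exact AddSubgroup.subset_closure ⟨p, hp, rfl⟩

theorem lat_spanZ_mono (h : ∀ p ∈ l, SwSpanZ l' p.2.vec) (hv : SwSpanZ l v) : SwSpanZ l' v := by
  rw [lat_spanZ_iff] at *
  refine (AddSubgroup.closure_le _).2 ?_ hv
  rintro _ ⟨p, hp, rfl⟩
  exact (lat_spanZ_iff _ _).1 (h p hp)

theorem lat_spanZ_perm (h : l.Perm l') : SwSpanZ l v ↔ SwSpanZ l' v :=
  ⟨lat_spanZ_mono fun _ hp => lat_spanZ_root (h.mem_iff.1 hp),
    lat_spanZ_mono fun _ hp => lat_spanZ_root (h.mem_iff.2 hp)⟩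

theorem lat_spanZ_root_snd {β : RootD n} (hβ : β ∈ l.map Prod.snd) : SwSpanZ l β.vec := by
  obtain ⟨p, hp, rfl⟩ := List.mem_map.1 hβ
  exact lat_spanZ_root hp

theorem lat_spanZ_congr (h : l.map Prod.snd = l'.map Prod.snd) : SwSpanZ l v ↔ SwSpanZ l' v :=
  ⟨lat_spanZ_mono fun _ hp => lat_spanZ_root_snd (h ▸ List.mem_map_of_mem hp),
    lat_spanZ_mono fun _ hp => lat_spanZ_root_snd (h ▸ List.mem_map_of_mem hp)⟩

/-- induction principle -/
theorem lat_spanZ_induction {C : Vec n → Prop} (hr : ∀ p ∈ l, C p.2.vec) (h0 : C 0)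
    (ha : ∀ x y, C x → C y → C (x + y)) (hn : ∀ x, C x → C (-x)) (hv : SwSpanZ l v) : C v := by
  rw [lat_spanZ_iff] at hv
  induction hv using AddSubgroup.closure_induction with
  | mem x hx => obtain ⟨p, hp, rfl⟩ := hx; exact hr p hp
  | zero => exact h0
  | add x y _ _ hx hy => exact ha x y hx hy
  | neg x _ hx => exact hn x hx

/-- even sums over closed sets -/
theorem lat_spanZ_even {B : Finset (Fin n)} (hB : SwClosed l B) (hv : SwSpanZ l v) :
    ∃ z : ℤ, ∑ a ∈ B, v a = 2 * z := by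
  refine lat_spanZ_induction (C := fun v => ∃ z : ℤ, ∑ a ∈ B, v a = 2 * z) ?_ ?_ ?_ ?_ hv
  · intro p hp; exact lat_vec_sum_closed p.2 B (hB p hp)
  · exact ⟨0, by simp⟩
  · rintro x y ⟨z1, h1⟩ ⟨z2, h2⟩
    exact ⟨z1 + z2, by simp only [Pi.add_apply, Finset.sum_add_distrib, h1, h2]; push_cast; ring⟩
  · rintro x ⟨z1, h1⟩
    exact ⟨-z1, by simp only [Pi.neg_apply, Finset.sum_neg_distrib, h1]; push_cast; ring⟩

theorem lat_spanZ_int (hv : SwSpanZ l v) : IsIntV v := by
  refine lat_spanZ_induction (C := IsIntV) ?_ ?_ ?_ ?_ hv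
  · intro p _; exact lat_vec_int p.2
  · intro a; exact ⟨0, by simp⟩
  · intro x y hx hy a
    obtain ⟨z1, h1⟩ := hx a
    obtain ⟨z2, h2⟩ := hy a
    exact ⟨z1 + z2, by simp [h1, h2]⟩
  · intro x hx a
    obtain ⟨z1, h1⟩ := hx a
    exact ⟨-z1, by simp [h1]⟩

theorem lat_spanZ_inQD (hv : SwSpanZ l v) : InQD v := by
  refine ⟨lat_spanZ_int hv, ?_⟩
  have : SwClosed l Finset.univ := fun p _ => by simp
  exact lat_spanZ_even this hv

theorem lat_sgnB_int (b : Bool) : ∃ z : ℤ, sgnB b = z := by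
  cases b
  · exact ⟨1, by simp [sgnB]⟩
  · exact ⟨-1, by simp [sgnB]⟩

theorem lat_dot_int_root {x : Vec n} (hx : IsIntV x) (γ : RootD n) : ∃ z : ℤ, dot x γ.vec = z := by
  rw [lat_dot_vec]
  obtain ⟨s1, h1⟩ := lat_sgnB_int γ.si
  obtain ⟨s2, h2⟩ := lat_sgnB_int γ.sj
  obtain ⟨z1, e1⟩ := hx γ.i
  obtain ⟨z2, e2⟩ := hx γ.j
  exact ⟨s1 * z1 + s2 * z2, by rw [h1, h2, e1, e2]; push_cast; ring⟩

theorem lat_dot_root_int (β γ : RootD n) : ∃ z : ℤ, dot β.vec γ.vec = z :=
  lat_dot_int_root (lat_vec_int β) γ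

theorem lat_spanZ_refl {β γ : RootD n} (hβ : SwSpanZ l β.vec) (hγ : SwSpanZ l γ.vec) :
    SwSpanZ l (reflRoot β γ).vec := by
  rw [sc_reflRoot_vec, refl]
  obtain ⟨z, hz⟩ := lat_dot_root_int γ β
  rw [hz]
  exact lat_spanZ_sub hγ (lat_spanZ_zsmul z hβ)

/-- undo a reflection -/
theorem lat_spanZ_unrefl {β γ : RootD n} (hβ : SwSpanZ l β.vec)
    (hγ : SwSpanZ l (reflRoot β γ).vec) : SwSpanZ l γ.vec := by
  rw [sc_reflRoot_vec, refl] at hγ
  obtain ⟨z, hz⟩ := lat_dot_root_int γ β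
  rw [hz] at hγ
  have := lat_spanZ_add hγ (lat_spanZ_zsmul z hβ)
  simpa using this

/-! ## `SwGenQ` -/

theorem lat_genQ_iff (l : List (ℝ × RootD n)) : SwGenQ l ↔ ∀ v, InQD v → SwSpanZ l v := Iff.rfl

theorem lat_genQ_mono (h : SwGenQ l) (hl : ∀ p ∈ l, SwSpanZ l' p.2.vec) : SwGenQ l' :=
  fun v hv => lat_spanZ_mono hl (h v hv)

theorem lat_genQ_perm (h : l.Perm l') (hg : SwGenQ l) : SwGenQ l' :=
  fun v hv => (lat_spanZ_perm h).1 (hg v hv)

/-- orthogonality passes to the `ℤ`-span -/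
theorem lat_dot_spanZ {z : Vec n} (hz : ∀ p ∈ l, dot z p.2.vec = 0) (hv : SwSpanZ l v) :
    dot z v = 0 := by
  refine lat_spanZ_induction (C := fun v => dot z v = 0) hz (dot_zero_right z) ?_ ?_ hv
  · intro x y hx hy; rw [dot_add_right, hx, hy, add_zero]
  · intro x hx; rw [dot_neg_right, hx, neg_zero]

theorem lat_genQ_span (h : SwGenQ l) : SwSpan l := by
  intro z hz
  funext a
  have hQ : InQD (Pi.single a 2 : Vec n) := by
    constructor
    · intro i
      by_cases hi : i = a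
      · subst hi; exact ⟨2, by simp⟩
      · exact ⟨0, by simp [hi]⟩
    · exact ⟨1, by simp⟩
  have h1 := lat_dot_spanZ hz (h _ hQ)
  unfold dot at h1
  rw [Finset.sum_eq_single a] at h1
  · simpa using h1
  · intro b _ hb; simp [hb]
  · intro hh; exact absurd (Finset.mem_univ _) hh

/-- move the first switch into the list -/
theorem lat_genQ_insert (p : ℝ × RootD n) (l₁ l₂ : List (ℝ × RootD n))
    (h : SwGenQ (p :: (l₁ ++ l₂))) : SwGenQ (l₁ ++ p :: l₂) :=
  lat_genQ_perm List.perm_middle.symm h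

theorem lat_mem_mapSw {g : WB n} {q : ℝ × RootD n} (hq : q ∈ l) : (q.1, q.2.map g) ∈ mapSw g l :=
  List.mem_map.2 ⟨q, hq, rfl⟩

/-- reflect a suffix in a member of the list -/
theorem lat_genQ_refl_suffix (l₁ l₂ : List (ℝ × RootD n)) (β : RootD n)
    (hβ : SwSpanZ (l₁ ++ mapSw (WB.ofRoot β) l₂) β.vec) (h : SwGenQ (l₁ ++ l₂)) :
    SwGenQ (l₁ ++ mapSw (WB.ofRoot β) l₂) := by
  apply lat_genQ_mono h
  intro q hq
  rcases List.mem_append.1 hq with hq | hq
  · exact lat_spanZ_root (List.mem_append_left _ hq)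
  · apply lat_spanZ_unrefl hβ
    exact lat_spanZ_root (p := (q.1, q.2.map (WB.ofRoot β)))
      (List.mem_append_right _ (lat_mem_mapSw hq))

/-- move the first switch into the list and reflect the suffix in it -/
theorem lat_genQ_insert_refl (p : ℝ × RootD n) (l₁ l₂ : List (ℝ × RootD n))
    (h : SwGenQ (p :: (l₁ ++ l₂))) : SwGenQ (l₁ ++ p :: mapSw (WB.ofRoot p.2) l₂) := by
  have hp : SwSpanZ (l₁ ++ p :: mapSw (WB.ofRoot p.2) l₂) p.2.vec :=
    lat_spanZ_root (List.mem_append_right _ List.mem_cons_self)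
  apply lat_genQ_mono h
  intro q hq
  rcases List.mem_cons.1 hq with rfl | hq
  · exact hp
  rcases List.mem_append.1 hq with hq | hq
  · exact lat_spanZ_root (List.mem_append_left _ hq)
  · apply lat_spanZ_unrefl hp
    exact lat_spanZ_root (p := (q.1, q.2.map (WB.ofRoot p.2)))
      (List.mem_append_right _ (List.mem_cons_of_mem _ (lat_mem_mapSw hq)))

/-- replace `β` by `β', β''` with `β = β' + β''` -/
theorem lat_genQ_split (l₁ l₂ : List (ℝ × RootD n)) (p p' p'' : ℝ × RootD n)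
    (hp : p.2.vec = p'.2.vec + p''.2.vec) (h : SwGenQ (l₁ ++ p :: l₂)) :
    SwGenQ (l₁ ++ p' :: p'' :: l₂) := by
  apply lat_genQ_mono h
  intro q hq
  rcases List.mem_append.1 hq with hq | hq
  · exact lat_spanZ_root (List.mem_append_left _ hq)
  rcases List.mem_cons.1 hq with rfl | hq
  · rw [hp]
    exact lat_spanZ_add (lat_spanZ_root (List.mem_append_right _ List.mem_cons_self))
      (lat_spanZ_root (List.mem_append_right _ (List.mem_cons_of_mem _ List.mem_cons_self)))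
  · exact lat_spanZ_root
      (List.mem_append_right _ (List.mem_cons_of_mem _ (List.mem_cons_of_mem _ hq)))

/-! ## the velocity list -/

theorem lat_vel_length (l : List (ℝ × RootD n)) : (velSw l).length = l.length := by
  simp [velSw, sc_velRoots_length]

theorem lat_vel_snd (l : List (ℝ × RootD n)) : (velSw l).map Prod.snd = velRoots (l.map Prod.snd) := by
  simp [velSw, Function.comp_def]

theorem lat_gen_set (l : List (ℝ × RootD n)) :
    {u : Vec n | ∃ p ∈ l, u = p.2.vec} = {u : Vec n | ∃ β ∈ l.map Prod.snd, u = β.vec} := by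
  ext u
  constructor
  · rintro ⟨p, hp, rfl⟩; exact ⟨p.2, List.mem_map_of_mem hp, rfl⟩
  · rintro ⟨β, hβ, rfl⟩
    obtain ⟨p, hp, rfl⟩ := List.mem_map.1 hβ
    exact ⟨p, hp, rfl⟩

theorem lat_vel_spanZ (l : List (ℝ × RootD n)) (v : Vec n) : SwSpanZ (velSw l) v ↔ SwSpanZ l v := by
  rw [lat_spanZ_iff, lat_spanZ_iff, lat_gen_set, lat_gen_set, lat_vel_snd, sc_vel_span_int]

theorem lat_vel_genQ (l : List (ℝ × RootD n)) : SwGenQ (velSw l) ↔ SwGenQ l := by
  simp only [lat_genQ_iff, lat_vel_spanZ]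

theorem lat_orth_iff_spanZ (l : List (ℝ × RootD n)) (z : Vec n) :
    (∀ p ∈ l, dot z p.2.vec = 0) ↔ ∀ v, SwSpanZ l v → dot z v = 0 :=
  ⟨fun h _ hv => lat_dot_spanZ h hv, fun h _ hp => h _ (lat_spanZ_root hp)⟩

/-- (`z ⊥` all roots of `l` iff `z ⊥` the `ℤ`-span) -/
theorem lat_vel_span (l : List (ℝ × RootD n)) : SwSpan (velSw l) ↔ SwSpan l := by
  unfold SwSpan
  simp only [lat_orth_iff_spanZ, lat_vel_spanZ]

/-- `SwIndep` in terms of the list of roots -/
theorem lat_indep_iff_map (l : List (ℝ × RootD n)) :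
    SwIndep l ↔ LinearIndependent ℝ
      (fun i : Fin (l.map Prod.snd).length => ((l.map Prod.snd).get i).vec) := by
  unfold SwIndep
  rw [← linearIndependent_equiv (finCongr (List.length_map (as := l) Prod.snd))]
  apply iff_of_eq
  congr 1
  funext i
  simp

theorem lat_vel_indep (l : List (ℝ × RootD n)) : SwIndep (velSw l) ↔ SwIndep l := by
  rw [lat_indep_iff_map, lat_indep_iff_map l, lat_vel_snd, sc_vel_indep]

/-- `relSum` over the velocity list is the sum in `sc_rel_vel` -/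
theorem lat_vel_relSum (c : List ℝ) (l : List (ℝ × RootD n)) :
    relSum c (velSw l)
      = (List.zipWith (fun a (γ : RootD n) => a • γ.vec) c (velRoots (l.map Prod.snd))).sum := by
  unfold relSum velSw
  rw [List.zipWith_map_right]

/-- generates the equation lemmas of the definitions of this file here (rule 6: unique names). -/
theorem latSpanZ_eqns_cite : True := by
  have := @velSw.eq_1
  trivial

end Claimed.Agent.R282
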