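import Claimed.Agent.R282.S34.Lat.Rel
import Claimed.Agent.R282.S34.Lat.Pot
import Claimed.Agent.R282.S34.Lat.Phase
import Claimed.Agent.R282.Sched.Simplify

/-!
# Row 282, package BP-S34-B, file 7: the gap form `r^G = gapLinList r l` of a relation (velocity roots)

LEAF L-LAT-7 = this file (~350 lines; paper-free; uses `Lat/Rel`, `Lat/SpanZ` (velocity list `velSw`), `sc_rel_vel`, `sc_gapLin_inj`, `sc_del_zero_gap_vel`).

PLAN.  `g = gapLinList d l`, `g_i = - ∑_{j<i} d_j β_j·β_i - d_i` (`lat_gapLin_getD`: `List.getD_map`/`List.getElem_map`, `List.getElem_range`; `gapLin` of `S34/Link.lean` is the same expression).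
* `lat_reflList_inj`: `refl β` is an involution (`sc_refl_refl`-type lemma of `Sched/Weyl`, or direct: `dot β.vec β.vec = 2`); induction on the list.  `reflList l 0 = 0`.
* `lat_gapLin_rel`: `sc_rel_vel` + `lat_vel_relSum` + injectivity: `relSum g (velSw l) = 0`; length by `List.length_map`, `List.length_range`, `lat_vel_length`.
* `lat_gapLin_int`: integral `d` gives integral `g` (`lat_dot_relSum` or induction; `lat_dot_root_int`).
* `lat_primRel_gap`: if `q ∣ g_i` for all `i` then `q ∣ r_i` for all `i` by strong induction on `i` (`r_i = - g_i - ∑_{j<i} r_j (β_j·β_i)`); so `q` is a unit.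
* `lat_gap_bound`: `lat_primRel_bound` for `velSw l` (`lat_vel_span`, `lat_vel_length`).
* `lat_gap_entry_ne`: `g` is a nonzero relation of `velSw l` (`sc_gapLin_inj`); `(velSw l).eraseIdx l₁.length` has the roots
  `velRoots ((l₁ ++ mapSw (WB.ofRoot β) l₂).map Prod.snd)` (`sc_del_zero_gap_vel`; `List.eraseIdx_map`; `(p.2.map (WB.ofRoot β)) = reflRoot β p.2` is `rfl`), independent by `lat_vel_indep`;
  `lat_rel_entry_ne`.  (`SwIndep` only depends on the roots: `lat_indep_congr`.)
-/

set_option autoImplicit false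

namespace Claimed.Agent.R282

variable {n : ℕ} {l : List (ℝ × RootD n)}

theorem lat_gapLin_length (d : List ℝ) (l : List (ℝ × RootD n)) :
    (gapLinList d l).length = l.length := by
  simp [gapLinList]

theorem lat_gapLin_getD (d : List ℝ) (l : List (ℝ × RootD n)) (i : ℕ) (hi : i < l.length) :
    (gapLinList d l).getD i 0 = - dot (relSum (d.take i) l) l[i].2.vec - d.getD i 0 := by
  rw [List.getD_eq_getElem _ _ (by rw [lat_gapLin_length]; exact hi)]
  unfold gapLinList
  rw [List.getElem_map, List.getElem_range, List.getD_eq_getElem _ _ (by simpa using hi),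
    List.getElem_map]

theorem lat_reflList_inj (l : List (RootD n)) {x y : Vec n} (h : reflList l x = reflList l y) :
    x = y := by
  induction l generalizing x y with
  | nil => exact h
  | cons β l ih =>
    have h1 : refl β x = refl β y := ih h
    rw [← latPot_refl_refl β x, h1, latPot_refl_refl]

theorem lat_reflList_zero (l : List (RootD n)) : reflList l (0 : Vec n) = 0 := by
  have := lat_reflList_smul l 0 (0 : Vec n)
  simpa using this

theorem lat_indep_congr {l l' : List (ℝ × RootD n)} (h : l.map Prod.snd = l'.map Prod.snd) :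
    SwIndep l ↔ SwIndep l' := by
  rw [lat_indep_iff_map, lat_indep_iff_map l', h]

/-- the gap form of a relation is a relation among the velocity roots -/
theorem lat_gapLin_rel {d : List ℝ} (hd : IsRel d l) : IsRel (gapLinList d l) (velSw l) := by
  refine ⟨by rw [lat_gapLin_length, lat_vel_length], ?_⟩
  rw [lat_vel_relSum]
  apply lat_reflList_inj (l.map Prod.snd)
  rw [← sc_rel_vel d l hd.1, hd.2, lat_reflList_zero]

theorem lat_gapLin_ne {d : List ℝ} (hd : d.length = l.length) (h0 : ∃ a ∈ d, a ≠ 0) :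
    ∃ a ∈ gapLinList d l, a ≠ 0 := by
  by_contra hcon
  push Not at hcon
  obtain ⟨a, ha, hne⟩ := h0
  exact hne (sc_gapLin_inj d l hd hcon a ha)

theorem lat_getD_int {c : List ℝ} (h : ∀ a ∈ c, ∃ z : ℤ, a = z) (i : ℕ) :
    ∃ z : ℤ, c.getD i 0 = z := by
  by_cases hi : i < c.length
  · rw [List.getD_eq_getElem _ _ hi]; exact h _ (List.getElem_mem hi)
  · rw [List.getD_eq_default _ _ (by omega)]; exact ⟨0, by simp⟩

theorem lat_relSum_int {c : List ℝ} (h : ∀ a ∈ c, ∃ z : ℤ, a = z) (l : List (ℝ × RootD n)) :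
    IsIntV (relSum c l) := by
  intro a
  rw [lat_relSum_eq_sum, Finset.sum_apply]
  apply lat_sum_int
  intro i _
  obtain ⟨z1, h1⟩ := lat_getD_int h i
  obtain ⟨z2, h2⟩ := lat_vec_int (l.get i).2 a
  exact ⟨z1 * z2, by rw [Pi.smul_apply, smul_eq_mul, h1, h2]; push_cast; ring⟩

theorem lat_gapLin_int (r : List ℤ) (l : List (ℝ × RootD n)) :
    ∃ g : List ℤ, g.map (fun z => (z : ℝ)) = gapLinList (r.map (fun z => (z : ℝ))) l := by
  apply lat_cast_exists
  intro a ha
  obtain ⟨i, hi, rfl⟩ := List.getElem_of_mem ha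
  have hi' : i < l.length := by rwa [lat_gapLin_length] at hi
  rw [← List.getD_eq_getElem _ 0 hi, lat_gapLin_getD _ _ _ hi']
  have hint : ∀ a ∈ r.map (fun z => (z : ℝ)), ∃ z : ℤ, a = z := by
    intro a ha
    obtain ⟨z, _, rfl⟩ := lat_cast_mem.1 ha
    exact ⟨z, rfl⟩
  obtain ⟨z1, h1⟩ := lat_dot_int_root
    (lat_relSum_int (c := (r.map (fun z => (z : ℝ))).take i)
      (fun a ha => hint a (List.mem_of_mem_take ha)) l) l[i].2
  obtain ⟨z2, h2⟩ := lat_getD_int hint i
  exact ⟨-z1 - z2, by rw [h1, h2]; push_cast; ring⟩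

/-- the triangular change `r ↦ r^G` is unimodular -/
theorem lat_gapLin_dvd {r g : List ℤ}
    (hg : g.map (fun z => (z : ℝ)) = gapLinList (r.map (fun z => (z : ℝ))) l) (q : ℤ)
    (hq : ∀ a ∈ g, q ∣ a) (i : ℕ) (hi : i < l.length) : q ∣ r.getD i 0 := by
  have hZ : ∀ i j : Fin l.length, ∃ z : ℤ, dot (l.get i).2.vec (l.get j).2.vec = z :=
    fun i j => lat_dot_root_int _ _
  choose Z hZ using hZ
  have hglen : g.length = l.length := by
    rw [← lat_cast_length, hg, lat_gapLin_length]
  induction i using Nat.strong_induction_on with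
  | _ i ih =>
    have h1 : ((g.getD i 0 : ℤ) : ℝ)
        = - dot (relSum ((r.map (fun z => (z : ℝ))).take i) l) l[i].2.vec
          - (r.map (fun z => (z : ℝ))).getD i 0 := by
      rw [← lat_cast_getD, hg, lat_gapLin_getD _ _ _ hi]
    rw [dot_comm, lat_dot_relSum, lat_cast_getD] at h1
    have h2 : ∑ j : Fin l.length, ((r.map (fun z => (z : ℝ))).take i).getD j 0
          * dot l[i].2.vec (l.get j).2.vec
        = ((∑ j : Fin l.length, (if (j : ℕ) < i then r.getD j 0 else 0) * Z ⟨i, hi⟩ j : ℤ) : ℝ) := by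
      push_cast
      refine Finset.sum_congr rfl fun j _ => ?_
      rw [lat_getD_take, ← hZ ⟨i, hi⟩ j, lat_cast_getD]
      rfl
    rw [h2] at h1
    have h3 : g.getD i 0
        = - (∑ j : Fin l.length, (if (j : ℕ) < i then r.getD j 0 else 0) * Z ⟨i, hi⟩ j)
          - r.getD i 0 := by
      exact_mod_cast h1
    have h4 : q ∣ g.getD i 0 := by
      rw [List.getD_eq_getElem _ _ (hglen ▸ hi)]
      exact hq _ (List.getElem_mem _)
    have h5 : q ∣ ∑ j : Fin l.length, (if (j : ℕ) < i then r.getD j 0 else 0) * Z ⟨i, hi⟩ j := by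
      apply Finset.dvd_sum
      intro j _
      apply dvd_mul_of_dvd_left
      by_cases hj : (j : ℕ) < i
      · rw [if_pos hj]; exact ih j hj j.2
      · rw [if_neg hj]; exact dvd_zero q
    have h6 : r.getD i 0
        = - (∑ j : Fin l.length, (if (j : ℕ) < i then r.getD j 0 else 0) * Z ⟨i, hi⟩ j)
          - g.getD i 0 := by
      rw [h3]; ring
    rw [h6]
    exact dvd_sub (Dvd.dvd.neg_right h5) h4

/-- the gap form of the primitive relation is the primitive relation of the velocity roots -/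
theorem lat_primRel_gap {r : List ℤ} (hr : IsPrimRel r l) :
    ∃ g : List ℤ, g.map (fun z => (z : ℝ)) = gapLinList (r.map (fun z => (z : ℝ))) l ∧
      IsPrimRel g (velSw l) := by
  obtain ⟨g, hg⟩ := lat_gapLin_int r l
  have hrel := lat_gapLin_rel (lat_primRel_rel hr)
  refine ⟨g, hg, ?_, ?_, ?_⟩
  · rw [← lat_cast_length, hg]; exact hrel.1
  · rw [hg]; exact hrel.2
  · intro q hq
    apply hr.2.2
    intro a ha
    obtain ⟨i, hi, rfl⟩ := List.getElem_of_mem ha
    rw [← List.getD_eq_getElem _ 0 hi]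
    exact lat_gapLin_dvd hg q hq i (hr.1 ▸ hi)

theorem lat_gap_bound (hs : SwSpan l) (hl : l.length = n + 1) {r : List ℤ} (hr : IsPrimRel r l) :
    ∀ a ∈ gapLinList (r.map (fun z => (z : ℝ))) l, ∃ z : ℤ, a = z ∧ |z| ≤ 2 := by
  obtain ⟨g, hg, hp⟩ := lat_primRel_gap hr
  have hb := lat_primRel_bound ((lat_vel_span l).2 hs) (by rw [lat_vel_length, hl]) hp
  intro a ha
  rw [← hg] at ha
  obtain ⟨z, hz, rfl⟩ := lat_cast_mem.1 ha
  exact ⟨z, rfl, hb z hz⟩

theorem lat_mapSw_snd (g : WB n) (l : List (ℝ × RootD n)) :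
    (mapSw g l).map Prod.snd = (l.map Prod.snd).map (fun γ => γ.map g) := by
  simp [mapSw, Function.comp_def]

/-- the gap form at a switch is nonzero if the schedule obtained by deleting it (suffix reflected) has
independent roots -/
theorem lat_gap_entry_ne (l₁ l₂ : List (ℝ × RootD n)) (t : ℝ) (β : RootD n) {d : List ℝ}
    (hd : IsRel d (l₁ ++ (t, β) :: l₂)) (h0 : ∃ a ∈ d, a ≠ 0)
    (hI : SwIndep (l₁ ++ mapSw (WB.ofRoot β) l₂)) :
    (gapLinList d (l₁ ++ (t, β) :: l₂)).getD l₁.length 0 ≠ 0 := by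
  apply lat_rel_entry_ne (lat_gapLin_rel hd) (lat_gapLin_ne hd.1 h0)
  rw [← lat_vel_indep] at hI
  refine (lat_indep_congr ?_).1 hI
  rw [lat_vel_snd, ← List.eraseIdx_map, lat_vel_snd, List.map_append, List.map_append, List.map_cons,
    lat_mapSw_snd]
  have := sc_del_zero_gap_vel (l₁.map Prod.snd) (l₂.map Prod.snd) β
  rw [List.length_map] at this
  exact this

theorem lat_primRel_gap_entry_ne (l₁ l₂ : List (ℝ × RootD n)) (t : ℝ) (β : RootD n) {r : List ℤ}
    (hr : IsPrimRel r (l₁ ++ (t, β) :: l₂)) (hI : SwIndep (l₁ ++ mapSw (WB.ofRoot β) l₂)) :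
    (gapLinList (r.map (fun z => (z : ℝ))) (l₁ ++ (t, β) :: l₂)).getD l₁.length 0 ≠ 0 := by
  apply lat_gap_entry_ne l₁ l₂ t β (lat_primRel_rel hr) _ hI
  obtain ⟨a, ha, hne⟩ := lat_primRel_ne hr
  exact ⟨a, lat_cast_mem.2 ⟨a, ha, rfl⟩, by exact_mod_cast hne⟩

end Claimed.Agent.R282
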